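import Vale.Agent.P040.Mono46.Ins

/-!
# Sorting a fan of curves (rows FA*)
-/

namespace Vale.Agent.P040.Mono46

open Finset

variable {ι : Type*} [DecidableEq ι]

/-- a fan: curves `γ x` on `[0, ℓ x]`, `x ∈ S`, of different lengths; no curve passes through the end of another -/
structure Fan (S : Finset ι) (ℓ : ι → ℝ) (γ : ι → ℝ → ℝ) : Prop where
  pos : ∀ x ∈ S, 0 < ℓ x
  inj : ∀ x ∈ S, ∀ y ∈ S, ℓ x = ℓ y → x = y
  cont : ∀ x ∈ S, ContinuousOn (γ x) (Set.Icc 0 (ℓ x))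
  avoid : ∀ x ∈ S, ∀ y ∈ S, x ≠ y → ℓ y ≤ ℓ x → γ x (ℓ y) ≠ γ y (ℓ y)

/-- `γ'` is a weakly sorted re-routing of the fan `γ`; `l` lists `S` from bottom to top -/
structure Sorted (S : Finset ι) (ℓ : ι → ℝ) (γ γ' : ι → ℝ → ℝ) (σ : ℝ → Equiv.Perm ι) (l : List ι) :
    Prop where
  mem : ∀ x, x ∈ l ↔ x ∈ S
  nodup : l.Nodup
  pw : l.Pairwise (Below ℓ γ')
  cont : ∀ x ∈ S, ContinuousOn (γ' x) (Set.Icc 0 (ℓ x))
  fin : ∀ x ∈ S, γ' x (ℓ x) = γ x (ℓ x)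
  sel : ∀ x u, γ' x u = γ (σ u x) u
  fix : ∀ u, ∀ x ∉ S, σ u x = x
  act : ∀ u, ∀ x ∈ S, u ≤ ℓ x → u ≤ ℓ (σ u x)

variable {S : Finset ι} {ℓ : ι → ℝ} {γ γ1 : ι → ℝ → ℝ} {σ1 : ℝ → Equiv.Perm ι} {l1 : List ι}

/-- (FA1) -/
lemma Fan.mono {S' : Finset ι} (F : Fan S ℓ γ) (h : S' ⊆ S) : Fan S' ℓ γ :=
  ⟨fun x hx => F.pos x (h hx), fun x hx y hy => F.inj x (h hx) y (h hy),
    fun x hx => F.cont x (h hx), fun x hx y hy => F.avoid x (h hx) y (h hy)⟩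

/-- (FA2) -/
lemma sorted_empty : Sorted (∅ : Finset ι) ℓ γ γ (fun _ => 1) [] := by
  refine ⟨fun x => by simp, List.nodup_nil, List.Pairwise.nil, fun x hx => by simp at hx,
    fun x hx => by simp at hx, fun x u => rfl, fun u x _ => rfl, fun u x hx => by simp at hx⟩

/-- (FA3) as `Step.mem`: a permutation fixing the complement of `S` maps `S` into `S`. -/
lemma Sorted.smem (h : Sorted S ℓ γ γ1 σ1 l1) (u : ℝ) {x : ι} (hx : x ∈ S) : σ1 u x ∈ S := by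
  by_contra hn
  have h1 : σ1 u (σ1 u x) = σ1 u x := h.fix u _ hn
  have h2 : σ1 u x = x := (σ1 u).injective h1
  exact hn (h2.symm ▸ hx)

/-- (FA4) two curves of a sorted fan are weakly ordered: `List.Pairwise.forall_of_forall` for the symmetric relation
`x = y ∨ Below x y ∨ Below y x` (after `List.Pairwise.imp`). -/
lemma Sorted.total (h : Sorted S ℓ γ γ1 σ1 l1) {x y : ι} (hx : x ∈ S) (hy : y ∈ S) (hxy : x ≠ y) :
    Below ℓ γ1 x y ∨ Below ℓ γ1 y x := by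
  have hx' : x ∈ l1 := (h.mem x).mpr hx
  have hy' : y ∈ l1 := (h.mem y).mpr hy
  have hp : l1.Pairwise (fun a b => Below ℓ γ1 a b ∨ Below ℓ γ1 b a) :=
    h.pw.imp (fun hab => Or.inl hab)
  have : Std.Symm (fun a b => Below ℓ γ1 a b ∨ Below ℓ γ1 b a) := ⟨fun _ _ hab => hab.symm⟩
  exact hp.forall hx' hy' hxy

/-- (FA5) The induction step: insert the shortest curve `z`.  `L = ℓ z > 0`.  `γ1 z = γ z` (`sel`, `fix`).  Apply `insB ℓ L _ z rfl l1 γ1`: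
`z ∉ l1` (`mem`), `L ≤ ℓ x` (`hmin`), and `γ1 x L ≠ γ1 z L`: `γ1 x L = γ y L` with `y = σ1 L x ∈ S` (FA3), `y ≠ z`,
`F.avoid`.  It gives `γ2, σ2, l2`; take `γ' = γ2`, `σ u = σ1 u * σ2 u`, `l = l2`.
`mem`, `nodup`: `List.Perm.mem_iff`, `List.Perm.nodup_iff`.  `cont`: `Step.cont` (`insert z l1.toFinset = insert z S`).
`fin`: `Step.ge` with `u = ℓ x ≥ L`.  `sel`: `γ2 x u = γ1 (σ2 u x) u = γ (σ1 u (σ2 u x)) u`.  `fix`: both fix `x`.
`act`: if `L < u` then `σ2 u = 1` (`Step.one`), `x ≠ z`, use `h.act`; if `u ≤ L` then `y = σ2 u x ∈ insert z S` (`Step.mem`);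
`y = z`: `σ1 u z = z`, `u ≤ L`; `y ∈ S`: `u ≤ L ≤ ℓ y`, `h.act`. -/
lemma fan_step {z : ι} (hz : z ∉ S) (hmin : ∀ x ∈ S, ℓ z ≤ ℓ x) (F : Fan (insert z S) ℓ γ)
    (h : Sorted S ℓ γ γ1 σ1 l1) :
    ∃ (γ' : ι → ℝ → ℝ) (σ : ℝ → Equiv.Perm ι) (l : List ι), Sorted (insert z S) ℓ γ γ' σ l := by
  have hL : 0 < ℓ z := F.pos z (Finset.mem_insert_self z S)
  have e1z : γ1 z = γ z := by
    funext u
    rw [h.sel z u, h.fix u z hz]
  have hzl : z ∉ l1 := fun hm => hz ((h.mem z).1 hm)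
  have hLl : ∀ x ∈ l1, ℓ z ≤ ℓ x := fun x hx => hmin x ((h.mem x).1 hx)
  have hne : ∀ x ∈ l1, γ1 x (ℓ z) ≠ γ1 z (ℓ z) := by
    intro x hx
    have hxS : x ∈ S := (h.mem x).1 hx
    have hyS : σ1 (ℓ z) x ∈ S := h.smem (ℓ z) hxS
    have hyz : σ1 (ℓ z) x ≠ z := fun e => hz (e ▸ hyS)
    rw [h.sel x (ℓ z), e1z]
    exact F.avoid _ (Finset.mem_insert_of_mem hyS) z (Finset.mem_insert_self z S) hyz
      (hmin _ hyS)
  obtain ⟨γ2, σ2, l2, hperm, hstep, hpw⟩ := insB ℓ (ℓ z) hL.le z rfl l1 γ1 hzl h.nodup hLl h.pw hne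
  have hT : insert z l1.toFinset = insert z S := by
    ext x
    simp only [Finset.mem_insert, List.mem_toFinset, h.mem]
  rw [hT] at hstep
  refine ⟨γ2, fun u => σ1 u * σ2 u, l2, ⟨?_, ?_, hpw, ?_, ?_, ?_, ?_, ?_⟩⟩
  · intro x
    rw [hperm.mem_iff, List.mem_cons, h.mem, Finset.mem_insert]
  · exact hperm.nodup_iff.2 (List.nodup_cons.2 ⟨hzl, h.nodup⟩)
  · refine hstep.cont ?_
    intro x hx
    rcases Finset.mem_insert.1 hx with rfl | hxS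
    · rw [e1z]
      exact F.cont x hx
    · exact h.cont x hxS
  · intro x hx
    rcases Finset.mem_insert.1 hx with rfl | hxS
    · rw [hstep.ge x (ℓ x) le_rfl, e1z]
    · rw [hstep.ge x (ℓ x) (hmin x hxS), h.fin x hxS]
  · intro x u
    rw [hstep.sel x u, h.sel (σ2 u x) u, Equiv.Perm.mul_apply]
  · intro u x hx
    have hxS : x ∉ S := fun hm => hx (Finset.mem_insert_of_mem hm)
    rw [Equiv.Perm.mul_apply, hstep.fix u x hx, h.fix u x hxS]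
  · intro u x hx hux
    rw [Equiv.Perm.mul_apply]
    rcases lt_or_ge (ℓ z) u with hu | hu
    · rw [hstep.one u hu, Equiv.Perm.one_apply]
      rcases Finset.mem_insert.1 hx with rfl | hxS
      · exact absurd hux (not_le.2 hu)
      · exact h.act u x hxS hux
    · rcases Finset.mem_insert.1 (hstep.mem u hx) with hy | hy
      · rw [hy, h.fix u z hz]
        exact hu
      · exact h.act u _ hy (hu.trans (hmin _ hy))

/-- every fan can be sorted -/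
theorem fan_sort (S : Finset ι) (ℓ : ι → ℝ) (γ : ι → ℝ → ℝ) (F : Fan S ℓ γ) :
    ∃ (γ' : ι → ℝ → ℝ) (σ : ℝ → Equiv.Perm ι) (l : List ι), Sorted S ℓ γ γ' σ l := by
  induction S using Finset.induction_on_min_value ℓ with
  | empty => exact ⟨γ, fun _ => 1, [], sorted_empty⟩
  | insert a s ha hmin ih =>
    obtain ⟨γ1, σ1, l1, h1⟩ := ih (F.mono (Finset.subset_insert a s))
    exact fan_step ha hmin F h1

end Vale.Agent.P040.Mono46
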