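import Vale.Agent.P040.Mono46.WStar
import Vale.Agent.P040.Mono.Bridge

/-!
# Two stars of a monotone drawing give the combinatorial data `Pair` (rows MG*)

Pattern for MG3 - MG10: choose the common x-range `[lo, hi]` named in the row, apply `meet_of_ne`
(or `meet_of_le_of_ge`) to `f1 = α p`, `f2 = β q` (continuity by `ContinuousOn.mono` from `S.cont`,
`S'.cont`; `Set.uIcc_of_le`, `Set.uIcc_of_ge`, `Set.Icc_subset_Icc`), translate the values at the ends
by `endR`, `endB`, `Star.hgt_R`, `Star.hgt_L`, `decide_eq_true_iff`, and check that the point found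
lies in both `uIcc`s.
-/

namespace Vale.Agent.P040.Mono46

open Finset Vale.Agent.P040.Mono

/-- Two blue vertices `b = (bx, by_)` left of `b' = (bx', by')` over the same reds. -/
structure WGeo2 (n g g' : ℕ) (X Y : ℕ → ℝ) (bx by_ bx' by' : ℝ) (α β : ℕ → ℝ → ℝ) : Prop where
  S : WStar n g X Y bx by_ α
  S' : WStar n g' X Y bx' by' β
  hb : bx < bx'
  hαb : ∀ x < n, g' ≤ x → α x bx' ≠ by'
  hβb : ∀ x < g, β x bx ≠ by_

variable {n g g' : ℕ} {X Y : ℕ → ℝ} {bx by_ bx' by' : ℝ} {α β : ℕ → ℝ → ℝ}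

/-- (MG0) otherwise the red `g'` satisfies `X g' < bx < bx' < X g'`. -/
lemma WGeo2.gap_le (G : WGeo2 n g g' X Y bx by_ bx' by' α β) : g ≤ g' := by
  by_contra hlt
  have hlt' : g' < g := Nat.lt_of_not_le hlt
  have h1 : X g' < bx := G.S.left g' hlt'
  have h2 : bx' < X g' := G.S'.right g' le_rfl (lt_of_lt_of_le hlt' G.S.hg)
  have h3 := G.hb
  linarith

/-- (WMG1) COPY the proof of the lemma of the same name in `Mono/Bridge.lean`; `hgt_R`, `hgt_L` now need a last
argument `hne` (the two values differ: `WStar.ne_end`, or `ne_of_lt`).  Old hint: `α x bx' < by' < α y bx'`, then `Star.hgt_R` with `t = bx'`. -/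
lemma WGeo2.ha (G : WGeo2 n g g' X Y bx by_ bx' by' α β) : ∀ x < n, ∀ y < n, g' ≤ x → g' ≤ y →
    aG bx' by' α x = false → aG bx' by' α y = true → hgtW n g X α x < hgtW n g X α y := by
  intro x hx y hy hgx hgy hax hay
  have hgg := G.gap_le
  have h1 : ¬ by' < α x bx' := by
    simpa [aG] using hax
  have h2 : by' < α y bx' := by
    simpa [aG] using hay
  have h3 : α x bx' < by' := lt_of_le_of_ne (not_lt.mp h1) (G.hαb x hx hgx)
  have h4 : α x bx' < α y bx' := h3.trans h2
  have hxy : x ≠ y := by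
    rintro rfl
    exact lt_irrefl _ h4
  exact (G.S.hgt_R (le_trans hgg hgx) hx (le_trans hgg hgy) hy hxy G.hb
    (G.S'.right x hgx hx).le (G.S'.right y hgy hy).le (ne_of_lt h4)).mpr h4


/-- (WMG2) COPY the proof of the lemma of the same name in `Mono/Bridge.lean`; `hgt_R`, `hgt_L` now need a last
argument `hne` (the two values differ: `WStar.ne_end`, or `ne_of_lt`).  Old hint: `β x bx < by_ < β y bx`, then `Star.hgt_L` for `S'` with `t = bx`. -/
lemma WGeo2.hc (G : WGeo2 n g g' X Y bx by_ bx' by' α β) : ∀ x < g, ∀ y < g,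
    cG bx by_ β x = false → cG bx by_ β y = true → hgtW n g' X β x < hgtW n g' X β y := by
  intro x hx y hy h1 h2
  have hgg := G.gap_le
  have h1' : ¬ by_ < β x bx := by
    simpa [cG] using h1
  have h2' : by_ < β y bx := by
    simpa [cG] using h2
  have h3 : β x bx < by_ := lt_of_le_of_ne (not_lt.mp h1') (G.hβb x hx)
  have hxy : x ≠ y := by
    rintro rfl
    exact h1' h2'
  exact (G.S'.hgt_L (by omega) (by omega) hxy G.hb (G.S.left x hx).le (G.S.left y hy).le
    (ne_of_lt (h3.trans h2'))).2 (h3.trans h2')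


/-- (WMG3) COPY the proof of the lemma of the same name in `Mono/Bridge.lean`; `hgt_R`, `hgt_L` now need a last
argument `hne` (the two values differ: `WStar.ne_end`, or `ne_of_lt`).  Old hint: range `[X q, bx]`.  At `X q`: `hgt p < hgt q ↔ α p (X q) < Y q = β q (X q)` (`S.hgt_L`);
at `bx`: `cG q ↔ α p bx = by_ < β q bx`. -/
lemma WGeo2.cLL1 (G : WGeo2 n g g' X Y bx by_ bx' by' α β) : ∀ p q, p < q → q < g →
    ¬ (cG bx by_ β q = true ↔ hgtW n g X α p < hgtW n g X α q) → CrG X bx bx' α β p q := by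
  intro p q hpq hq hne
  have hgn := G.S.hg
  have hgg := G.gap_le
  have hqn : q < n := by omega
  have hpn : p < n := by omega
  have hpg : p < g := by omega
  have hXpq : X p < X q := G.S.hX p q hpq hqn
  have hXq : X q < bx := G.S.left q hq
  have hb := G.hb
  have c1 : ContinuousOn (α p) (Set.Icc (X q) bx) := by
    refine (G.S.cont p hpn).mono ?_
    rw [Set.uIcc_of_le (by linarith)]
    exact Set.Icc_subset_Icc hXpq.le le_rfl
  have c2 : ContinuousOn (β q) (Set.Icc (X q) bx) := by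
    refine (G.S'.cont q hqn).mono ?_
    rw [Set.uIcc_of_le (by linarith)]
    exact Set.Icc_subset_Icc le_rfl hb.le
  have hm : X q ∈ Set.uIcc (X p) bx := by
    rw [Set.uIcc_of_le (by linarith)]
    exact ⟨hXpq.le, hXq.le⟩
  have hne' : α p (X q) ≠ α q (X q) := G.S.ne_end hpn hqn (by omega) hm
  have h1 : (α p (X q) < β q (X q) ↔ hgtW n g X α p < hgtW n g X α q) := by
    rw [G.S'.endR q hqn, ← G.S.endR q hqn]
    exact (G.S.hgt_L hpg hq (by omega) hXq hXpq.le le_rfl hne').symm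
  have h2 : (α p bx < β q bx ↔ cG bx by_ β q = true) := by
    rw [G.S.endB p hpn]
    unfold cG
    rw [decide_eq_true_iff]
  obtain ⟨t, ht, e⟩ := meet_of_ne hXq.le c1 c2 (by rw [h1, h2]; tauto)
  refine ⟨t, ⟨?_, ?_⟩, e⟩
  · rw [Set.uIcc_of_le (by linarith)]
    exact ⟨by linarith [ht.1], ht.2⟩
  · rw [Set.uIcc_of_le (by linarith)]
    exact ⟨ht.1, by linarith [ht.2]⟩


/-- (WMG4) COPY the proof of the lemma of the same name in `Mono/Bridge.lean`; `hgt_R`, `hgt_L` now need a last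
argument `hne` (the two values differ: `WStar.ne_end`, or `ne_of_lt`).  Old hint: range `[X p, bx]`.  At `X p`: `hgt' p < hgt' q ↔ α p (X p) = Y p = β p (X p) < β q (X p)`
(`S'.hgt_L`); at `bx`: `cG q ↔ by_ < β q bx`. -/
lemma WGeo2.cLL2 (G : WGeo2 n g g' X Y bx by_ bx' by' α β) : ∀ p q, q < p → p < g →
    ¬ (cG bx by_ β q = true ↔ hgtW n g' X β p < hgtW n g' X β q) → CrG X bx bx' α β p q := by
  intro p q hqp hpg hne
  have hgg := G.gap_le
  have hgn := G.S.hg
  have hgn' := G.S'.hg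
  have hb := G.hb
  have hXp : X p < bx := G.S.left p hpg
  have hXqp : X q < X p := G.S.hX q p hqp (by omega)
  have c1 : ContinuousOn (α p) (Set.Icc (X p) bx) := by
    have := G.S.cont p (by omega)
    rwa [Set.uIcc_of_le hXp.le] at this
  have c2 : ContinuousOn (β q) (Set.Icc (X p) bx) := by
    have := G.S'.cont q (by omega)
    rw [Set.uIcc_of_le (by linarith)] at this
    exact this.mono (Set.Icc_subset_Icc hXqp.le hb.le)
  have e1 : α p (X p) = β p (X p) := by
    rw [G.S.endR p (by omega), G.S'.endR p (by omega)]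
  have hm : X p ∈ Set.uIcc (X q) bx' := by
    rw [Set.uIcc_of_le (by linarith)]
    exact ⟨hXqp.le, by linarith⟩
  have hne' : β p (X p) ≠ β q (X p) :=
    (G.S'.ne_end (x := q) (y := p) (by omega) (by omega) (by omega) hm).symm
  have hL := G.S'.hgt_L (x := p) (y := q) (by omega) (by omega) (by omega) (t := X p)
    (by linarith) le_rfl hXqp.le hne'
  obtain ⟨t, ht, he⟩ := meet_of_ne hXp.le c1 c2 (by
    rw [e1, ← hL, G.S.endB p (by omega)]
    intro hiff
    apply hne
    rw [hiff]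
    simp [cG])
  refine ⟨t, ⟨?_, ?_⟩, he⟩
  · rw [Set.uIcc_of_le hXp.le]; exact ht
  · rw [Set.uIcc_of_le (by linarith)]; exact ⟨by linarith [ht.1], by linarith [ht.2]⟩


/-- (WMG5) COPY the proof of the lemma of the same name in `Mono/Bridge.lean`; `hgt_R`, `hgt_L` now need a last
argument `hne` (the two values differ: `WStar.ne_end`, or `ne_of_lt`).  Old hint: range `[bx', X q]`.  At `bx'`: `aG p ↔ β q bx' = by' < α p bx'`; at `X q`:
`hgt q < hgt p ↔ β q (X q) = Y q = α q (X q) < α p (X q)` (`S.hgt_R`). -/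
lemma WGeo2.cRR1 (G : WGeo2 n g g' X Y bx by_ bx' by' α β) : ∀ p q, g' ≤ q → q < p → p < n →
    ¬ (aG bx' by' α p = true ↔ hgtW n g X α q < hgtW n g X α p) → CrG X bx bx' α β p q := by
  intro p q hgq hqp hpn hne
  have hgg := G.gap_le
  have hb := G.hb
  have hXq : bx' < X q := G.S'.right q hgq (by omega)
  have hXqp : X q < X p := G.S.hX q p hqp hpn
  have c1 : ContinuousOn (β q) (Set.Icc bx' (X q)) := by
    have := G.S'.cont q (by omega)
    rwa [Set.uIcc_of_ge hXq.le] at this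
  have c2 : ContinuousOn (α p) (Set.Icc bx' (X q)) := by
    have := G.S.cont p hpn
    rw [Set.uIcc_of_ge (by linarith)] at this
    exact this.mono (Set.Icc_subset_Icc hb.le hXqp.le)
  have e1 : β q (X q) = α q (X q) := by
    rw [G.S.endR q (by omega), G.S'.endR q (by omega)]
  have hm : X q ∈ Set.uIcc (X p) bx := by
    rw [Set.uIcc_of_ge (by linarith)]
    exact ⟨by linarith, hXqp.le⟩
  have hR := G.S.hgt_R (x := q) (y := p) (by omega) (by omega) (by omega) hpn (by omega)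
    (t := X q) (by linarith) le_rfl hXqp.le (G.S.ne_end hpn (by omega) (by omega) hm).symm
  obtain ⟨t, ht, he⟩ := meet_of_ne hXq.le c1 c2 (by
    rw [e1, ← hR, G.S'.endB q (by omega)]
    intro hiff
    apply hne
    rw [← hiff]
    simp [aG])
  refine ⟨t, ⟨?_, ?_⟩, he.symm⟩
  · rw [Set.uIcc_of_ge (by linarith)]; exact ⟨by linarith [ht.1], by linarith [ht.2]⟩
  · rw [Set.uIcc_of_ge hXq.le]; exact ht


/-- (WMG6) COPY the proof of the lemma of the same name in `Mono/Bridge.lean`; `hgt_R`, `hgt_L` now need a last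
argument `hne` (the two values differ: `WStar.ne_end`, or `ne_of_lt`).  Old hint: range `[bx', X p]`.  At `bx'`: `aG p ↔ by' < α p bx'`; at `X p`:
`hgt' q < hgt' p ↔ β q (X p) < β p (X p) = Y p = α p (X p)` (`S'.hgt_R`). -/
lemma WGeo2.cRR2 (G : WGeo2 n g g' X Y bx by_ bx' by' α β) : ∀ p q, g' ≤ p → p < q → q < n →
    ¬ (aG bx' by' α p = true ↔ hgtW n g' X β q < hgtW n g' X β p) → CrG X bx bx' α β p q := by
  intro p q hgp hpq hqn hne
  have hgg := G.gap_le
  have hb := G.hb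
  have hXp : bx' < X p := G.S'.right p hgp (by omega)
  have hXpq : X p < X q := G.S.hX p q hpq hqn
  have c1 : ContinuousOn (β q) (Set.Icc bx' (X p)) := by
    have := G.S'.cont q hqn
    rw [Set.uIcc_of_ge (by linarith)] at this
    exact this.mono (Set.Icc_subset_Icc le_rfl hXpq.le)
  have c2 : ContinuousOn (α p) (Set.Icc bx' (X p)) := by
    have := G.S.cont p (by omega)
    rw [Set.uIcc_of_ge (by linarith)] at this
    exact this.mono (Set.Icc_subset_Icc hb.le le_rfl)
  have e1 : α p (X p) = β p (X p) := by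
    rw [G.S.endR p (by omega), G.S'.endR p (by omega)]
  have hm : X p ∈ Set.uIcc (X q) bx' := by
    rw [Set.uIcc_of_ge (by linarith)]
    exact ⟨hXp.le, hXpq.le⟩
  have hR := G.S'.hgt_R (x := q) (y := p) (by omega) hqn hgp (by omega) (by omega)
    (t := X p) hXp hXpq.le le_rfl (G.S'.ne_end hqn (by omega) (by omega) hm)
  obtain ⟨t, ht, he⟩ := meet_of_ne hXp.le c1 c2 (by
    rw [e1, ← hR, G.S'.endB q hqn]
    intro hiff
    apply hne
    rw [← hiff]
    simp [aG])
  refine ⟨t, ⟨?_, ?_⟩, he.symm⟩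
  · rw [Set.uIcc_of_ge (by linarith)]; exact ⟨by linarith [ht.1], ht.2⟩
  · rw [Set.uIcc_of_ge (by linarith)]; exact ⟨ht.1, by linarith [ht.2]⟩


/-- (WMG7) COPY the proof of the lemma of the same name in `Mono/Bridge.lean`; `hgt_R`, `hgt_L` now need a last
argument `hne` (the two values differ: `WStar.ne_end`, or `ne_of_lt`).  Old hint: range `[bx, bx']`.  At `bx`: `cG q ↔ α p bx = by_ < β q bx` (and `β q bx ≠ by_`); at `bx'`:
`aG p ↔ β q bx' = by' < α p bx'` (and `α p bx' ≠ by'`).  Two cases, `meet_of_le_of_ge`. -/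
lemma WGeo2.cRL (G : WGeo2 n g g' X Y bx by_ bx' by' α β) : ∀ p q, g' ≤ p → p < n → q < g →
    (cG bx by_ β q = true ↔ aG bx' by' α p = true) → CrG X bx bx' α β p q := by
  intro p q hgp hp hq hiff
  have hgg := G.gap_le
  have hqn : q < n := lt_of_lt_of_le hq G.S.hg
  have hXp : bx' < X p := G.S'.right p hgp hp
  have hXq : X q < bx := G.S.left q hq
  have hb := G.hb
  have sub1 : Set.Icc bx bx' ⊆ Set.uIcc (X p) bx := by
    intro t ht
    rw [Set.uIcc_of_ge (by linarith)]
    exact ⟨ht.1, by linarith [ht.2]⟩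
  have sub2 : Set.Icc bx bx' ⊆ Set.uIcc (X q) bx' := by
    intro t ht
    rw [Set.uIcc_of_le (by linarith)]
    exact ⟨by linarith [ht.1], ht.2⟩
  have c1 : ContinuousOn (α p) (Set.Icc bx bx') := (G.S.cont p hp).mono sub1
  have c2 : ContinuousOn (β q) (Set.Icc bx bx') := (G.S'.cont q hqn).mono sub2
  have e1 : α p bx = by_ := G.S.endB p hp
  have e2 : β q bx' = by' := G.S'.endB q hqn
  have hc : (cG bx by_ β q = true ↔ by_ < β q bx) := by simp [cG]
  have ha : (aG bx' by' α p = true ↔ by' < α p bx') := by simp [aG]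
  rw [hc, ha] at hiff
  by_cases h1 : by_ < β q bx
  · have h2 := hiff.mp h1
    obtain ⟨t, ht, he⟩ := meet_of_le_of_ge hb.le c1 c2 (by rw [e1]; exact h1.le)
      (by rw [e2]; exact h2.le)
    exact ⟨t, ⟨sub1 ht, sub2 ht⟩, he⟩
  · have h2 : ¬ by' < α p bx' := fun h => h1 (hiff.mpr h)
    obtain ⟨t, ht, he⟩ := meet_of_le_of_ge hb.le c2 c1 (by rw [e1]; exact not_lt.mp h1)
      (by rw [e2]; exact not_lt.mp h2)
    exact ⟨t, ⟨sub1 ht, sub2 ht⟩, he.symm⟩


/-- (WMG8) COPY the proof of the lemma of the same name in `Mono/Bridge.lean`; `hgt_R`, `hgt_L` now need a last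
argument `hne` (the two values differ: `WStar.ne_end`, or `ne_of_lt`).  Old hint: range `[bx, X p]`.  At `bx`: `cG q ↔ by_ < β q bx` (and `≠`); at `X p`:
`hgt' q < hgt' p ↔ β q (X p) < β p (X p) = Y p = α p (X p)` (`S'.hgt_L`; `β q (X p) ≠ Y p` by
`S'.avoid`). -/
lemma WGeo2.cXL (G : WGeo2 n g g' X Y bx by_ bx' by' α β) : ∀ p q, g ≤ p → p < g' → q < g →
    (cG bx by_ β q = true ↔ hgtW n g' X β q < hgtW n g' X β p) → CrG X bx bx' α β p q := by
  intro p q hgp hpg' hqg hiff
  have hpn : p < n := lt_of_lt_of_le hpg' G.S'.hg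
  have hqn : q < n := lt_of_lt_of_le hqg G.S.hg
  have hqg' : q < g' := lt_of_lt_of_le hqg (le_trans hgp hpg'.le)
  have hbp : bx < X p := G.S.right p hgp hpn
  have hpb' : X p < bx' := G.S'.left p hpg'
  have hqb : X q < bx := G.S.left q hqg
  have hqp : q ≠ p := by omega
  have hXqp : X q ≤ X p := by linarith
  have e1 : Set.uIcc (X p) bx = Set.Icc bx (X p) := Set.uIcc_of_ge hbp.le
  have e2 : Set.uIcc (X q) bx' = Set.Icc (X q) bx' := Set.uIcc_of_le (by linarith)
  have c1 : ContinuousOn (α p) (Set.Icc bx (X p)) := e1 ▸ G.S.cont p hpn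
  have c2 : ContinuousOn (β q) (Set.Icc bx (X p)) :=
    (e2 ▸ G.S'.cont q hqn).mono (Set.Icc_subset_Icc hqb.le hpb'.le)
  have hmem : X p ∈ Set.uIcc (X q) bx' := by
    rw [e2]
    exact ⟨hXqp, hpb'.le⟩
  have hL := G.S'.hgt_L hqg' hpg' hqp (t := X p) hpb' hXqp le_rfl
    (G.S'.ne_end hqn hpn hqp hmem)
  rw [hL, G.S'.endR p hpn] at hiff
  have hc : cG bx by_ β q = true ↔ by_ < β q bx := by
    unfold cG
    exact decide_eq_true_iff
  rw [hc] at hiff
  have key : ∃ t ∈ Set.Icc bx (X p), α p t = β q t := by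
    by_cases h1 : by_ < β q bx
    · have h2 := hiff.1 h1
      exact meet_of_le_of_ge hbp.le c1 c2 (by rw [G.S.endB p hpn]; exact h1.le)
        (by rw [G.S.endR p hpn]; exact h2.le)
    · have h2 : ¬ β q (X p) < Y p := fun h => h1 (hiff.2 h)
      obtain ⟨t, ht, he⟩ := meet_of_le_of_ge hbp.le c2 c1
        (by rw [G.S.endB p hpn]; exact not_lt.1 h1) (by rw [G.S.endR p hpn]; exact not_lt.1 h2)
      exact ⟨t, ht, he.symm⟩
  obtain ⟨t, ht, he⟩ := key
  refine ⟨t, ⟨?_, ?_⟩, he⟩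
  · rw [e1]
    exact ht
  · rw [e2]
    exact ⟨by linarith [ht.1], by linarith [ht.2]⟩

/-- (WMG9) COPY the proof of the lemma of the same name in `Mono/Bridge.lean`; `hgt_R`, `hgt_L` now need a last
argument `hne` (the two values differ: `WStar.ne_end`, or `ne_of_lt`).  Old hint: range `[X q, bx']`.  At `X q`: `hgt q < hgt p ↔ β q (X q) = Y q = α q (X q) < α p (X q)`
(`S.hgt_R`); at `bx'`: `aG p ↔ β q bx' = by' < α p bx'`. -/
lemma WGeo2.cRX (G : WGeo2 n g g' X Y bx by_ bx' by' α β) : ∀ p q, g' ≤ p → p < n → g ≤ q → q < g' →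
    ¬ (hgtW n g X α q < hgtW n g X α p ↔ aG bx' by' α p = true) → CrG X bx bx' α β p q := by
  intro p q hgp hp hgq hq h
  have hqn : q < n := lt_of_lt_of_le hq G.S'.hg
  have hqp : q < p := lt_of_lt_of_le hq hgp
  have e1 : bx < X q := G.S.right q hgq hqn
  have e2 : X q < bx' := G.S'.left q hq
  have e3 : bx' < X p := G.S'.right p hgp hp
  have e4 : X q < X p := G.S.hX q p hqp hp
  have hgp' : g ≤ p := le_trans hgq hqp.le
  have cα : ContinuousOn (α p) (Set.Icc (X q) bx') := by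
    refine (G.S.cont p hp).mono ?_
    rw [Set.uIcc_of_ge (by linarith : bx ≤ X p)]
    exact Set.Icc_subset_Icc e1.le e3.le
  have cβ : ContinuousOn (β q) (Set.Icc (X q) bx') := by
    refine (G.S'.cont q hqn).mono ?_
    rw [Set.uIcc_of_le e2.le]
  have hm : X q ∈ Set.uIcc (X p) bx := by
    rw [Set.uIcc_of_ge (by linarith : bx ≤ X p)]
    exact ⟨e1.le, e4.le⟩
  have hne : α q (X q) ≠ α p (X q) := (G.S.ne_end hp hqn hqp.ne' hm).symm
  have k1 : (hgtW n g X α q < hgtW n g X α p ↔ β q (X q) < α p (X q)) := by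
    rw [G.S.hgt_R hgq hqn hgp' hp hqp.ne e1 le_rfl e4.le hne, G.S.endR q hqn, G.S'.endR q hqn]
  have k2 : (aG bx' by' α p = true ↔ β q bx' < α p bx') := by
    rw [G.S'.endB q hqn]
    unfold aG
    rw [decide_eq_true_iff]
  rw [k1, k2] at h
  obtain ⟨t, ht, he⟩ := meet_of_ne e2.le cβ cα h
  refine ⟨t, ⟨?_, ?_⟩, he.symm⟩
  · rw [Set.uIcc_of_ge (by linarith : bx ≤ X p)]
    exact ⟨by linarith [ht.1], by linarith [ht.2]⟩
  · rw [Set.uIcc_of_le e2.le]
    exact ht


/-- (WMG10) COPY the proof of the lemma of the same name in `Mono/Bridge.lean`; `hgt_R`, `hgt_L` now need a last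
argument `hne` (the two values differ: `WStar.ne_end`, or `ne_of_lt`).  Old hint: range `[X q, X p]`.  At `X q`: `hgt q < hgt p ↔ β q (X q) = Y q < α p (X q)` (`S.hgt_R`);
at `X p`: `hgt' q < hgt' p ↔ β q (X p) < Y p = α p (X p)` (`S'.hgt_L`). -/
lemma WGeo2.cXX (G : WGeo2 n g g' X Y bx by_ bx' by' α β) : ∀ p q, g ≤ q → q < p → p < g' →
    ¬ (hgtW n g X α q < hgtW n g X α p ↔ hgtW n g' X β q < hgtW n g' X β p) →
    CrG X bx bx' α β p q := by
  intro p q hq hqp hp hne
  have hgn := G.S'.hg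
  have hpn : p < n := by omega
  have hqn : q < n := by omega
  have hXqp : X q < X p := G.S.hX q p hqp hpn
  have hbq : bx < X q := G.S.right q hq hqn
  have hpb : X p < bx' := G.S'.left p hp
  have c1 : ContinuousOn (α p) (Set.Icc (X q) (X p)) := by
    refine (G.S.cont p hpn).mono ?_
    rw [Set.uIcc_of_ge (by linarith)]
    exact Set.Icc_subset_Icc hbq.le le_rfl
  have c2 : ContinuousOn (β q) (Set.Icc (X q) (X p)) := by
    refine (G.S'.cont q hqn).mono ?_
    rw [Set.uIcc_of_le (by linarith)]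
    exact Set.Icc_subset_Icc le_rfl hpb.le
  have n1 : α q (X q) ≠ α p (X q) := by
    refine (G.S.ne_end hpn hqn (by omega) ?_).symm
    rw [Set.uIcc_of_ge (by linarith)]
    exact ⟨hbq.le, hXqp.le⟩
  have n2 : β q (X p) ≠ β p (X p) := by
    refine G.S'.ne_end hqn hpn (by omega) ?_
    rw [Set.uIcc_of_le (by linarith)]
    exact ⟨hXqp.le, hpb.le⟩
  have h1 : (β q (X q) < α p (X q) ↔ hgtW n g X α q < hgtW n g X α p) := by
    rw [G.S'.endR q hqn, ← G.S.endR q hqn]
    exact (G.S.hgt_R hq hqn (by omega) hpn (by omega) hbq le_rfl hXqp.le n1).symm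
  have h2 : (β q (X p) < α p (X p) ↔ hgtW n g' X β q < hgtW n g' X β p) := by
    rw [G.S.endR p hpn, ← G.S'.endR p hpn]
    exact (G.S'.hgt_L (by omega) hp (by omega) hpb hXqp.le le_rfl n2).symm
  obtain ⟨t, ht, e⟩ := meet_of_ne hXqp.le c2 c1 (by rw [h1, h2]; exact hne)
  refine ⟨t, ⟨?_, ?_⟩, e.symm⟩
  · rw [Set.uIcc_of_ge (by linarith)]
    exact ⟨by linarith [ht.1], ht.2⟩
  · rw [Set.uIcc_of_le (by linarith)]
    exact ⟨ht.1, by linarith [ht.2]⟩

/-- the combinatorial data of two stars -/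
theorem WGeo2.pair {k : ℕ} (G : WGeo2 (2 * k + 1) g g' X Y bx by_ bx' by' α β) :
    Pair k g g' (hgtW (2 * k + 1) g X α) (hgtW (2 * k + 1) g' X β) (aG bx' by' α) (cG bx by_ β)
      (CrG X bx bx' α β) where
  hgg := G.gap_le
  H := G.S.isHgt
  H' := G.S'.isHgt
  ha := G.ha
  hc := G.hc
  cLL1 := G.cLL1
  cLL2 := G.cLL2
  cRR1 := G.cRR1
  cRR2 := G.cRR2
  cRL := G.cRL
  cXL := G.cXL
  cRX := G.cRX
  cXX := G.cXX

end Vale.Agent.P040.Mono46
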