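import Vale.Agent.P040.Mono46.WGeo

/-!
# Deleting a vertex of the first class (monotone drawings)
-/

namespace Vale.Agent.P040.Mono46

open Finset

variable {m n : ℕ}

/-- delete the vertex `a` of the first class -/
def WDrawing.del (D : WDrawing (m + 1) n) (a : Fin (m + 1)) : WDrawing m n where
  xA := fun i => D.xA (a.succAbove i)
  yA := fun i => D.yA (a.succAbove i)
  xB := D.xB
  yB := D.yB
  monoA := fun i j h => D.monoA (Fin.strictMono_succAbove a h)
  monoB := D.monoB
  distinct := fun i j => D.distinct _ j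
  edge := fun i j => D.edge (a.succAbove i) j
  cont := fun i j => D.cont _ j
  endA := fun i j => D.endA _ j
  endB := fun i j => D.endB _ j
  avoidA := fun i j i' h => D.avoidA _ j _ (fun e => h (Fin.succAbove_right_injective e))
  avoidB := fun i j j' h => D.avoidB _ j j' h
  wstar := fun i i' j h => D.wstar _ _ j (fun e => h (Fin.succAbove_right_injective e))

open Classical in
/-- the finset of crossing pairs -/
noncomputable def WDrawing.crossSet (D : WDrawing m n) :
    Finset ((Fin m × Fin n) × (Fin m × Fin n)) :=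
  univ.filter fun p => p.1.2 < p.2.2 ∧ p.1.1 ≠ p.2.1 ∧ D.Cross p.1 p.2

lemma crossings_eq_card (D : WDrawing m n) : D.crossings = D.crossSet.card := by
  classical
  unfold WDrawing.crossings WDrawing.crossSet
  rw [← Set.ncard_coe_finset]
  congr 1
  ext p
  simp

lemma card_del_le (D : WDrawing (m + 1) n) (a : Fin (m + 1)) :
    (D.del a).crossSet.card ≤ (D.crossSet.filter fun p => a ≠ p.1.1 ∧ a ≠ p.2.1).card := by
  classical
  apply Finset.card_le_card_of_injOn
    (fun q => ((a.succAbove q.1.1, q.1.2), (a.succAbove q.2.1, q.2.2)))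
  · intro q hq
    have hq' : q.1.2 < q.2.2 ∧ q.1.1 ≠ q.2.1 ∧ (D.del a).Cross q.1 q.2 := by
      simpa [WDrawing.crossSet] using hq
    have : (q.1.2 < q.2.2 ∧ a.succAbove q.1.1 ≠ a.succAbove q.2.1 ∧
        D.Cross (a.succAbove q.1.1, q.1.2) (a.succAbove q.2.1, q.2.2)) ∧
        a ≠ a.succAbove q.1.1 ∧ a ≠ a.succAbove q.2.1 :=
      ⟨⟨hq'.1, fun e => hq'.2.1 (Fin.succAbove_right_injective e), hq'.2.2⟩,
        (Fin.succAbove_ne a _).symm, (Fin.succAbove_ne a _).symm⟩
    simpa [WDrawing.crossSet] using this
  · intro q _ q' _ h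
    simp only [Prod.mk.injEq] at h
    obtain ⟨⟨h1, h2⟩, h3, h4⟩ := h
    have e1 := Fin.succAbove_right_injective h1
    have e3 := Fin.succAbove_right_injective h3
    ext <;> simp [e1, h2, e3, h4]

/-- Every crossing pair of `D` survives in exactly `m - 1` of the `m + 1` drawings `D.del a`. -/
lemma sum_del_le (D : WDrawing (m + 1) n) :
    ∑ a : Fin (m + 1), (D.del a).crossings ≤ (m - 1) * D.crossings := by
  classical
  calc ∑ a : Fin (m + 1), (D.del a).crossings
      = ∑ a : Fin (m + 1), (D.del a).crossSet.card := by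
        simp only [crossings_eq_card]
    _ ≤ ∑ a : Fin (m + 1), (D.crossSet.filter fun p => a ≠ p.1.1 ∧ a ≠ p.2.1).card :=
        Finset.sum_le_sum fun a _ => card_del_le D a
    _ = ∑ p ∈ D.crossSet, ((univ : Finset (Fin (m + 1))).filter
          fun a => a ≠ p.1.1 ∧ a ≠ p.2.1).card := by
        simp only [Finset.card_filter]
        rw [Finset.sum_comm]
    _ = ∑ p ∈ D.crossSet, (m - 1) := by
        apply Finset.sum_congr rfl
        intro p hp
        have hne : p.1.1 ≠ p.2.1 := by
          simp only [WDrawing.crossSet, mem_filter, mem_univ, true_and] at hp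
          exact hp.2.1
        have : ((univ : Finset (Fin (m + 1))).filter fun a => a ≠ p.1.1 ∧ a ≠ p.2.1)
            = univ \ {p.1.1, p.2.1} := by
          ext a
          simp
        rw [this, Finset.card_sdiff_of_subset (Finset.subset_univ _), Finset.card_univ,
          Fintype.card_fin, Finset.card_pair hne]
        omega
    _ = (m - 1) * D.crossings := by
        rw [Finset.sum_const, smul_eq_mul, crossings_eq_card, mul_comm]

lemma del_bound (c : ℕ) (h : ∀ D : WDrawing m n, c ≤ D.crossings)
    (D : WDrawing (m + 1) n) : (m + 1) * c ≤ (m - 1) * D.crossings := by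
  calc (m + 1) * c = ∑ _a : Fin (m + 1), c := by simp
    _ ≤ ∑ a : Fin (m + 1), (D.del a).crossings := Finset.sum_le_sum fun a _ => h _
    _ ≤ _ := sum_del_le D

/-- If every monotone drawing of `K_{2k+1,n}` has at least `k^2 Z(n)` crossing pairs (all `k`, `n`),
then every monotone drawing of `K_{m,n}` has at least `Z(m) Z(n)` crossing pairs. -/
theorem all_of_odd
    (h : ∀ (k n : ℕ) (D : WDrawing (2 * k + 1) n),
      k * k * ((n / 2) * ((n - 1) / 2)) ≤ D.crossings)
    (m n : ℕ) (D : WDrawing m n) :
    (m / 2) * ((m - 1) / 2) * ((n / 2) * ((n - 1) / 2)) ≤ D.crossings := by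
  obtain ⟨k, hk | hk⟩ := Nat.even_or_odd' m
  · rcases Nat.eq_zero_or_pos k with h0 | h0
    · subst hk; subst h0; simp
    · obtain ⟨j, rfl⟩ : ∃ j, k = j + 1 := ⟨k - 1, by omega⟩
      have hm : m = (2 * j + 1) + 1 := by omega
      subst hm
      have e1 : (2 * j + 1 + 1) / 2 = j + 1 := by omega
      have e2 : (2 * j + 1 + 1 - 1) / 2 = j := by omega
      rw [e1, e2]
      have hb := del_bound (m := 2 * j + 1) (n := n) _ (h j n) D
      have e3 : 2 * j + 1 - 1 = 2 * j := by omega
      rw [e3] at hb
      rcases Nat.eq_zero_or_pos j with hj | hj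
      · subst hj; simp
      · set Z := (n / 2) * ((n - 1) / 2) with hZ
        have hb' : (2 * j) * ((j + 1) * j * Z) ≤ (2 * j) * D.crossings := by
          calc (2 * j) * ((j + 1) * j * Z) = (2 * j + 1 + 1) * (j * j * Z) := by ring
            _ ≤ _ := hb
        exact Nat.le_of_mul_le_mul_left hb' (by omega)
  · subst hk
    have e1 : (2 * k + 1) / 2 = k := by omega
    have e2 : (2 * k + 1 - 1) / 2 = k := by omega
    rw [e1, e2]
    exact h k n D

end Vale.Agent.P040.Mono46
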