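import Vale.Agent.P040.Mono.Count
import Vale.Agent.P040.Mono46.WBridge
import Vale.Agent.P040.Mono46.WDel

/-!
# From a monotone drawing to the combinatorial data, and the cut count (rows MC*)
-/

namespace Vale.Agent.P040.Mono46

open Finset Vale.Agent.P040.All Vale.Agent.P040.Mono

variable {m n : ℕ}

/-- abscissa of the red `x` -/
noncomputable def XN (D : WDrawing m n) (x : ℕ) : ℝ := if hx : x < m then D.xA ⟨x, hx⟩ else 0
/-- ordinate of the red `x` -/
noncomputable def YN (D : WDrawing m n) (x : ℕ) : ℝ := if hx : x < m then D.yA ⟨x, hx⟩ else 0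
/-- the edge from the blue `j` to the red `x` -/
noncomputable def EN (D : WDrawing m n) (j : Fin n) (x : ℕ) : ℝ → ℝ :=
  if hx : x < m then D.edge ⟨x, hx⟩ j else fun _ => 0

open Classical in
/-- the number of reds left of the blue `j` -/
noncomputable def gapM (D : WDrawing m n) (j : Fin n) : ℕ :=
  (univ.filter fun i : Fin m => D.xA i < D.xB j).card

/-- (MC1) the set `{i | xA i < xB j}` is an initial segment of `Fin m` (`monoA`); copy of the proof of
the row (O2) `lt_gap_iff`-type lemma in `Cut/Order.lean`. -/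
lemma lt_gapM_iff (D : WDrawing m n) (j : Fin n) (i : Fin m) :
    (i : ℕ) < gapM D j ↔ D.xA i < D.xB j := by
  classical
  unfold gapM
  constructor
  · intro h
    by_contra hn
    have hsub : (univ.filter fun i : Fin m => D.xA i < D.xB j) ⊆ Finset.Iio i := by
      intro i' hi'
      rw [mem_filter] at hi'
      rw [Finset.mem_Iio]
      by_contra hle
      exact hn (lt_of_le_of_lt (D.monoA.monotone (not_lt.mp hle)) hi'.2)
    have := card_le_card hsub
    rw [Fin.card_Iio] at this
    omega
  · intro h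
    have hsub : Finset.Iic i ⊆ univ.filter fun i : Fin m => D.xA i < D.xB j := by
      intro i' hi'
      rw [Finset.mem_Iic] at hi'
      rw [mem_filter]
      exact ⟨mem_univ _, lt_of_le_of_lt (D.monoA.monotone hi') h⟩
    have := card_le_card hsub
    rw [Fin.card_Iic] at this
    omega

/-- (MC2) -/
lemma gapM_le (D : WDrawing m n) (j : Fin n) : gapM D j ≤ m := by
  classical
  unfold gapM
  exact (card_filter_le _ _).trans (by simp)

/-- (MC3) every field: `simp only [XN, YN, EN, dif_pos, …]` and the corresponding field of `D`;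
`left`, `right` from MC1 and `D.distinct`. -/
lemma star_of (D : WDrawing m n) (j : Fin n) :
    WStar m (gapM D j) (XN D) (YN D) (D.xB j) (D.yB j) (EN D j) := by
  have eX : ∀ x (hx : x < m), XN D x = D.xA ⟨x, hx⟩ := fun x hx => by simp only [XN, dif_pos hx]
  have eY : ∀ x (hx : x < m), YN D x = D.yA ⟨x, hx⟩ := fun x hx => by simp only [YN, dif_pos hx]
  have eE : ∀ x (hx : x < m), EN D j x = D.edge ⟨x, hx⟩ j := fun x hx => by
    simp only [EN, dif_pos hx]
  refine ⟨?_, gapM_le D j, ?_, ?_, ?_, ?_, ?_, ?_, ?_⟩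
  · intro x y hxy hy
    rw [eX x (hxy.trans hy), eX y hy]
    exact D.monoA (by simpa [Fin.lt_def] using hxy)
  · intro x hx
    have hxm : x < m := lt_of_lt_of_le hx (gapM_le D j)
    rw [eX x hxm]
    exact (lt_gapM_iff D j ⟨x, hxm⟩).1 hx
  · intro x hx hxm
    rw [eX x hxm]
    have h1 : ¬ D.xA ⟨x, hxm⟩ < D.xB j := by
      intro h
      have := (lt_gapM_iff D j ⟨x, hxm⟩).2 h
      simp only at this
      omega
    exact lt_of_le_of_ne (not_lt.mp h1) (D.distinct _ _).symm
  · intro x hx
    rw [eX x hx, eE x hx]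
    exact D.cont _ _
  · intro x hx
    rw [eX x hx, eE x hx, eY x hx]
    exact D.endA _ _
  · intro x hx
    rw [eE x hx]
    exact D.endB _ _
  · intro x hx y hy hyx h
    rw [eX x hx, eX y hy] at h
    rw [eX y hy, eE x hx, eY y hy]
    exact D.avoidA _ _ _ (by intro e; apply hyx; simpa using congrArg Fin.val e) h
  · intro x hx y hy hxy
    rw [eX x hx, eX y hy, eE x hx, eE y hy]
    exact D.wstar _ _ _ (by intro e; apply hxy; simpa using congrArg Fin.val e)

/-- (MC4) `S`, `S'` from MC3, `hb` from `monoB`, `hαb`, `hβb` from `D.avoidB` (the abscissa of the other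
blue vertex lies between the two ends: MC1, `Set.mem_uIcc`). -/
lemma geo2_of (D : WDrawing m n) {j j' : Fin n} (h : j < j') :
    WGeo2 m (gapM D j) (gapM D j') (XN D) (YN D) (D.xB j) (D.yB j) (D.xB j') (D.yB j')
      (EN D j) (EN D j') := by
  refine ⟨star_of D j, star_of D j', D.monoB h, ?_, ?_⟩
  · intro x hx hgx
    have h1 : ¬ D.xA ⟨x, hx⟩ < D.xB j' := by
      rw [← lt_gapM_iff]
      simpa using hgx
    have h2 : D.xB j < D.xB j' := D.monoB h
    simp only [EN, dif_pos hx]
    refine D.avoidB ⟨x, hx⟩ j j' (ne_of_gt h) ?_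
    rw [Set.mem_uIcc]
    right
    exact ⟨h2.le, not_lt.mp h1⟩
  · intro x hx
    have hxm : x < m := lt_of_lt_of_le hx (gapM_le D j)
    have h1 : D.xA ⟨x, hxm⟩ < D.xB j := by
      rw [← lt_gapM_iff]
      exact hx
    have h2 : D.xB j < D.xB j' := D.monoB h
    simp only [EN, dif_pos hxm]
    refine D.avoidB ⟨x, hxm⟩ j' j (ne_of_lt h) ?_
    rw [Set.mem_uIcc]
    left
    exact ⟨h1.le, h2.le⟩

open Classical in
/-- the number of crossing pairs between the stars of `j` and `j'` -/
noncomputable def pairCrossM (D : WDrawing m n) (j j' : Fin n) : ℕ :=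
  ((univ : Finset (Fin m × Fin m)).filter fun q => q.1 ≠ q.2 ∧ D.Cross (q.1, j) (q.2, j')).card

/-- (MC5) the map `q ↦ (⟨q.1, _⟩, ⟨q.2, _⟩)` is injective from the left set to the right one
(`card_le_card_of_injOn`, or `Finset.card_le_card_of_injOn` with
`fun q => (if h : q.1 < m then ⟨q.1, h⟩ else …)`; alternatively map the right set to the left by
`fun q => (q.1.val, q.2.val)` and show surjectivity, `card_le_card_of_surjOn`); `CrG` unfolds to
`D.Cross` by `dif_pos`. -/
lemma pairCrossM_ge (D : WDrawing m n) (j j' : Fin n)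
    [∀ p q, Decidable (CrG (XN D) (D.xB j) (D.xB j') (EN D j) (EN D j') p q)] :
    (((range m) ×ˢ (range m)).filter fun q => q.1 ≠ q.2 ∧
      CrG (XN D) (D.xB j) (D.xB j') (EN D j) (EN D j') q.1 q.2).card ≤ pairCrossM D j j' := by
  classical
  unfold pairCrossM
  apply Finset.card_le_card_of_surjOn (fun q : Fin m × Fin m => (q.1.val, q.2.val))
  intro q hq
  have hq' := Finset.mem_coe.mp hq
  rw [mem_filter, mem_product, mem_range, mem_range] at hq'
  obtain ⟨⟨h1, h2⟩, hne, hc⟩ := hq'
  refine ⟨(⟨q.1, h1⟩, ⟨q.2, h2⟩), ?_, rfl⟩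
  rw [Finset.mem_coe, mem_filter]
  refine ⟨mem_univ _, ?_, ?_⟩
  · intro h
    exact hne (congrArg Fin.val h)
  · unfold CrG at hc
    simp only [XN, EN, dif_pos h1, dif_pos h2] at hc
    exact hc

/-- (MC6) `D.crossings = D.crossSet.card` (`crossings_eq_card`); the left side is the cardinality of a
sigma type / of the image of the injective map `((j,j'),(i,i')) ↦ ((i,j),(i',j'))`; compare
`Cut.sum_pairCross_le` (here the map needs no case distinction). -/
lemma sum_pairCrossM_le (D : WDrawing m n) :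
    ∑ p ∈ (univ : Finset (Fin n × Fin n)).filter (fun p => p.1 < p.2), pairCrossM D p.1 p.2
      ≤ D.crossings := by
  classical
  rw [crossings_eq_card]
  have hsum : ∑ p ∈ (univ : Finset (Fin n × Fin n)).filter (fun p => p.1 < p.2),
      pairCrossM D p.1 p.2 =
      (((univ : Finset (Fin n × Fin n)).filter (fun p => p.1 < p.2)).sigma
        (fun p => (univ : Finset (Fin m × Fin m)).filter
          fun q => q.1 ≠ q.2 ∧ D.Cross (q.1, p.1) (q.2, p.2))).card := by
    rw [Finset.card_sigma]
    apply Finset.sum_congr rfl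
    intro p _
    unfold pairCrossM
    congr
  rw [hsum]
  apply Finset.card_le_card_of_injOn
    (fun x : (_ : Fin n × Fin n) × (Fin m × Fin m) => ((x.2.1, x.1.1), (x.2.2, x.1.2)))
  · rintro ⟨⟨j, j'⟩, ⟨i, i'⟩⟩ hx
    have hx' := Finset.mem_coe.mp hx
    rw [mem_sigma, mem_filter, mem_filter] at hx'
    obtain ⟨⟨-, hj⟩, -, hne, hc⟩ := hx'
    rw [Finset.mem_coe]
    unfold WDrawing.crossSet
    rw [mem_filter]
    exact ⟨mem_univ _, hj, hne, hc⟩
  · rintro ⟨⟨j, j'⟩, ⟨i, i'⟩⟩ _ ⟨⟨l, l'⟩, ⟨k, k'⟩⟩ _ hxy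
    simp only [Prod.mk.injEq] at hxy
    obtain ⟨⟨rfl, rfl⟩, rfl, rfl⟩ := hxy
    rfl

/-- the bound for odd `m` -/
theorem odd_bound (k n : ℕ) (D : WDrawing (2 * k + 1) n) :
    k * k * ((n / 2) * ((n - 1) / 2)) ≤ D.crossings := by
  classical
  have h := cut_count (II k) n
    (fun f j => PhiM k f (gapM D j) (hgtW (2 * k + 1) (gapM D j) (XN D) (EN D j)))
    (pairCrossM D) (by
      intro j j' hlt
      exact (core (geo2_of D hlt).pair).trans (pairCrossM_ge D j j'))
  rw [card_II] at h
  exact h.trans (sum_pairCrossM_le D)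

/-- **Zarankiewicz bound for x-monotone drawings.** -/
theorem wmono_zarankiewicz (m n : ℕ) (D : WDrawing m n) :
    (m / 2) * ((m - 1) / 2) * ((n / 2) * ((n - 1) / 2)) ≤ D.crossings :=
  all_of_odd odd_bound m n D

end Vale.Agent.P040.Mono46
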