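import Vale.Agent.P040.Mono46.XGeo
import Vale.Agent.P040.Mono46.Fan
import Vale.Agent.P040.Mono46.WCount

/-!
# Re-routing the stars of an arbitrary x-monotone drawing (rows BU*)

For a blue vertex `j` and a sign `s = ± 1` the edges going to the right (`s = 1`) resp. to the left (`s = -1`) form a fan
in the parameter `u = s (t - xB j)`.
-/

namespace Vale.Agent.P040.Mono46

open Finset

variable {m n : ℕ}

open Classical in
/-- the reds on the side `s` of the blue vertex `j` -/
noncomputable def SS (D : XDrawing m n) (j : Fin n) (s : ℝ) : Finset (Fin m) :=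
  univ.filter fun i => 0 < s * (D.xA i - D.xB j)

/-- horizontal length of the edge -/
def ll (D : XDrawing m n) (j : Fin n) (s : ℝ) (i : Fin m) : ℝ := s * (D.xA i - D.xB j)

/-- the edge in the parameter `u` -/
def gg (D : XDrawing m n) (j : Fin n) (s : ℝ) (i : Fin m) (u : ℝ) : ℝ := D.edge i j (D.xB j + s * u)

/-- the side of the red `i` -/
noncomputable def sg (D : XDrawing m n) (i : Fin m) (j : Fin n) : ℝ := if D.xB j < D.xA i then 1 else -1

/-- (BU1) `pos`: definition of `SS`.  `inj`: `s ≠ 0`, `D.monoA.injective`.  `cont`: `D.cont` composed with `u ↦ xB j + s u`, which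
maps `[0, s (xA i - xB j)]` into `uIcc (xA i) (xB j)` (cases `s = 1`, `s = -1`; `Set.mem_uIcc`).  `avoid`:
`xB j + s (s (xA y - xB j)) = xA y` (`s * s = 1`), `D.endA`, `D.avoidA`. -/
lemma fan_of (D : XDrawing m n) (j : Fin n) {s : ℝ} (hs : s = 1 ∨ s = -1) :
    Fan (SS D j s) (ll D j s) (gg D j s) := by
  have hss : s * s = 1 := by rcases hs with rfl | rfl <;> norm_num
  have hs0 : s ≠ 0 := by rcases hs with rfl | rfl <;> norm_num
  have hmem : ∀ x, x ∈ SS D j s ↔ 0 < s * (D.xA x - D.xB j) := by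
    intro x
    simp [SS]
  have hend : ∀ y, D.xB j + s * ll D j s y = D.xA y := by
    intro y
    unfold ll
    rw [← mul_assoc, hss]
    ring
  refine ⟨fun x hx => (hmem x).1 hx, ?_, ?_, ?_⟩
  · intro x _ y _ h
    unfold ll at h
    have h2 := mul_left_cancel₀ hs0 h
    exact D.monoA.injective (by linarith)
  · intro x hx
    have hpos := (hmem x).1 hx
    unfold gg
    refine (D.cont x j).comp (by fun_prop) ?_
    intro u hu
    obtain ⟨h0, h1⟩ := hu
    unfold ll at h1
    rw [Set.mem_uIcc]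
    rcases hs with rfl | rfl
    · right
      constructor <;> linarith
    · left
      constructor <;> linarith
  · intro x hx y hy hxy hle
    unfold gg
    rw [hend y, D.endA y j]
    refine D.avoidA x j y (Ne.symm hxy) ?_
    have hy0 := (hmem y).1 hy
    unfold ll at hle
    rw [Set.mem_uIcc]
    rcases hs with rfl | rfl
    · right
      constructor <;> linarith
    · left
      constructor <;> linarith

/-- the sorted fan -/
noncomputable def srt (D : XDrawing m n) (j : Fin n) (s : ℝ) :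
    (Fin m → ℝ → ℝ) × (ℝ → Equiv.Perm (Fin m)) × List (Fin m) :=
  if hs : s = 1 ∨ s = -1 then
    ((fan_sort _ _ _ (fan_of D j hs)).choose, (fan_sort _ _ _ (fan_of D j hs)).choose_spec.choose,
      (fan_sort _ _ _ (fan_of D j hs)).choose_spec.choose_spec.choose)
  else (fun _ _ => 0, fun _ => 1, [])

lemma srt_spec (D : XDrawing m n) (j : Fin n) {s : ℝ} (hs : s = 1 ∨ s = -1) :
    Sorted (SS D j s) (ll D j s) (gg D j s) (srt D j s).1 (srt D j s).2.1 (srt D j s).2.2 := by
  unfold srt
  rw [dif_pos hs]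
  exact (fan_sort _ _ _ (fan_of D j hs)).choose_spec.choose_spec.choose_spec

/-- the re-routed edge -/
noncomputable def newE (D : XDrawing m n) (i : Fin m) (j : Fin n) (t : ℝ) : ℝ :=
  (srt D j (sg D i j)).1 i (sg D i j * (t - D.xB j))

/-- the old edge that carries the new edge `i j` at the abscissa `t` -/
noncomputable def tau (D : XDrawing m n) (j : Fin n) (t : ℝ) (i : Fin m) : Fin m :=
  (srt D j (sg D i j)).2.1 (sg D i j * (t - D.xB j)) i

/-- (BU2) unfold `sg`, `split_ifs`. -/
lemma sg_cases (D : XDrawing m n) (i : Fin m) (j : Fin n) : sg D i j = 1 ∨ sg D i j = -1 := by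
  unfold sg
  split_ifs
  · exact Or.inl rfl
  · exact Or.inr rfl

/-- (BU3) membership in `SS` determines the side (`D.distinct`; cases on `hs` and on `D.xB j < D.xA i`). -/
lemma mem_SS_iff (D : XDrawing m n) (i : Fin m) (j : Fin n) {s : ℝ} (hs : s = 1 ∨ s = -1) :
    i ∈ SS D j s ↔ sg D i j = s := by
  have hd := D.distinct i j
  unfold SS sg
  rw [Finset.mem_filter]
  simp only [Finset.mem_univ, true_and]
  rcases hs with rfl | rfl
  · by_cases h : D.xB j < D.xA i
    · rw [if_pos h]
      exact ⟨fun _ => rfl, fun _ => by linarith⟩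
    · rw [if_neg h]
      constructor
      · intro h'
        exact absurd (by linarith) h
      · intro h'
        norm_num at h'
  · by_cases h : D.xB j < D.xA i
    · rw [if_pos h]
      constructor
      · intro h'
        linarith
      · intro h'
        norm_num at h'
    · rw [if_neg h]
      refine ⟨fun _ => rfl, fun _ => ?_⟩
      have : D.xA i < D.xB j := lt_of_le_of_ne (not_lt.1 h) hd
      linarith

/-- (BU4) the range of the edge in the parameter `u` (cases on `sg`; `Set.mem_uIcc`, `D.distinct`, linarith). -/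
lemma mem_uIcc_iff (D : XDrawing m n) (i : Fin m) (j : Fin n) (t : ℝ) :
    t ∈ Set.uIcc (D.xA i) (D.xB j) ↔
      0 ≤ sg D i j * (t - D.xB j) ∧ sg D i j * (t - D.xB j) ≤ ll D j (sg D i j) i := by
  have hd := D.distinct i j
  unfold ll sg
  rw [Set.mem_uIcc]
  split_ifs with h
  · constructor
    · rintro (⟨h1, h2⟩ | ⟨h1, h2⟩)
      · constructor <;> linarith
      · constructor <;> linarith
    · rintro ⟨h1, h2⟩
      right
      constructor <;> linarith
  · have h' : D.xA i < D.xB j := lt_of_le_of_ne (not_lt.mp h) hd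
    constructor
    · rintro (⟨h1, h2⟩ | ⟨h1, h2⟩)
      · constructor <;> linarith
      · constructor <;> linarith
    · rintro ⟨h1, h2⟩
      left
      constructor <;> linarith

/-- (BU5) `Sorted.sel`, `gg`, `s * (s * (t - xB j)) = t - xB j`. -/
lemma newE_sel (D : XDrawing m n) (i : Fin m) (j : Fin n) (t : ℝ) :
    newE D i j t = D.edge (tau D j t i) j t := by
  have hs := sg_cases D i j
  have hsp := srt_spec D j hs
  unfold newE tau
  rw [hsp.sel]
  unfold gg
  have h1 : sg D i j * (sg D i j * (t - D.xB j)) = t - D.xB j := by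
    rcases hs with h | h <;> rw [h] <;> ring
  rw [h1]
  congr 1
  ring

/-- (BU6) the carrier is on the same side (`Sorted.smem`, BU3) and is defined at `t` (`Sorted.act`, BU4). -/
lemma tau_act (D : XDrawing m n) (i : Fin m) (j : Fin n) {t : ℝ} (ht : t ∈ Set.uIcc (D.xA i) (D.xB j)) :
    sg D (tau D j t i) j = sg D i j ∧ t ∈ Set.uIcc (D.xA (tau D j t i)) (D.xB j) := by
  have hs := sg_cases D i j
  have hS := srt_spec D j hs
  have hi : i ∈ SS D j (sg D i j) := (mem_SS_iff D i j hs).2 rfl
  have hw : tau D j t i ∈ SS D j (sg D i j) := hS.smem _ hi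
  have hsw : sg D (tau D j t i) j = sg D i j := (mem_SS_iff D _ j hs).1 hw
  have hu := (mem_uIcc_iff D i j t).1 ht
  have hact : sg D i j * (t - D.xB j) ≤ ll D j (sg D i j) (tau D j t i) := hS.act _ i hi hu.2
  refine ⟨hsw, (mem_uIcc_iff D _ j t).2 ?_⟩
  rw [hsw]
  exact ⟨hu.1, hact⟩

/-- (BU7) by BU6 `i`, `i'` are on the same side, so the same permutation is applied to both (`Equiv.injective`). -/
lemma tau_inj (D : XDrawing m n) (j : Fin n) {t : ℝ} {i i' : Fin m}
    (ht : t ∈ Set.uIcc (D.xA i) (D.xB j)) (ht' : t ∈ Set.uIcc (D.xA i') (D.xB j))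
    (h : tau D j t i = tau D j t i') : i = i' := by
  have h1 := (tau_act D i j ht).1
  have h2 := (tau_act D i' j ht').1
  have hs : sg D i j = sg D i' j := by rw [← h1, ← h2, h]
  unfold tau at h
  rw [← hs] at h
  exact Equiv.injective _ h

/-- (BU8) `Sorted.cont` composed with `t ↦ sg * (t - xB j)` (BU4 gives `MapsTo`). -/
lemma newE_cont (D : XDrawing m n) (i : Fin m) (j : Fin n) :
    ContinuousOn (newE D i j) (Set.uIcc (D.xA i) (D.xB j)) := by
  have hs := sg_cases D i j
  have hmem : i ∈ SS D j (sg D i j) := (mem_SS_iff D i j hs).2 rfl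
  have hc := (srt_spec D j hs).cont i hmem
  have hlin : ContinuousOn (fun t : ℝ => sg D i j * (t - D.xB j)) (Set.uIcc (D.xA i) (D.xB j)) :=
    (continuous_const.mul (continuous_id.sub continuous_const)).continuousOn
  have hmaps : Set.MapsTo (fun t : ℝ => sg D i j * (t - D.xB j)) (Set.uIcc (D.xA i) (D.xB j))
      (Set.Icc 0 (ll D j (sg D i j) i)) := by
    intro t ht
    exact (mem_uIcc_iff D i j t).1 ht
  exact hc.comp hlin hmaps

/-- (BU9) `Sorted.fin` (`sg * (xA i - xB j) = ll`), `gg`, `s * s = 1`, `D.endA`. -/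
lemma newE_endA (D : XDrawing m n) (i : Fin m) (j : Fin n) : newE D i j (D.xA i) = D.yA i := by
  have hs := sg_cases D i j
  have hmem : i ∈ SS D j (sg D i j) := (mem_SS_iff D i j hs).2 rfl
  have h1 := (srt_spec D j hs).fin i hmem
  have hss : sg D i j * sg D i j = 1 := by
    rcases hs with h | h <;> rw [h] <;> norm_num
  have h2 : D.xB j + sg D i j * (sg D i j * (D.xA i - D.xB j)) = D.xA i := by
    rw [← mul_assoc, hss]
    ring
  unfold newE
  unfold ll gg at h1
  rw [h1, h2]
  exact D.endA i j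

/-- (BU10) BU5 and `D.endB`. -/
lemma newE_endB (D : XDrawing m n) (i : Fin m) (j : Fin n) : newE D i j (D.xB j) = D.yB j := by
  rw [newE_sel, D.endB]

/-- (BU11) at `t = xA i'` the edge `i'` carries itself: otherwise BU5, BU9, BU6 contradict `D.avoidA`. -/
lemma tau_self (D : XDrawing m n) (i' : Fin m) (j : Fin n) : tau D j (D.xA i') i' = i' := by
  by_contra hne
  have h1 := newE_sel D i' j (D.xA i')
  rw [newE_endA] at h1
  have h2 := (tau_act D i' j (t := D.xA i') Set.left_mem_uIcc).2
  exact D.avoidA (tau D j (D.xA i') i') j i' (fun h => hne h.symm) h2 h1.symm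

/-- (BU12) by BU5 the value is `D.edge w j (xA i')` with `w = tau D j (xA i') i`; `w ≠ i'` by BU11 and BU7; `D.avoidA` with BU6. -/
lemma newE_avoidA (D : XDrawing m n) (i : Fin m) (j : Fin n) (i' : Fin m) (h : i' ≠ i)
    (hm : D.xA i' ∈ Set.uIcc (D.xA i) (D.xB j)) : newE D i j (D.xA i') ≠ D.yA i' := by
  rw [newE_sel]
  have hw : i' ≠ tau D j (D.xA i') i := by
    intro hw
    have h1 : tau D j (D.xA i') i = tau D j (D.xA i') i' := by
      rw [tau_self, ← hw]
    exact h (tau_inj D j hm Set.left_mem_uIcc h1).symm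
  exact D.avoidA _ j i' hw (tau_act D i j hm).2

/-- (BU13) BU5, BU6, `D.avoidB`. -/
lemma newE_avoidB (D : XDrawing m n) (i : Fin m) (j j' : Fin n) (h : j' ≠ j)
    (hm : D.xB j' ∈ Set.uIcc (D.xA i) (D.xB j)) : newE D i j (D.xB j') ≠ D.yB j' := by
  rw [newE_sel]
  exact D.avoidB _ j j' h (tau_act D i j hm).2

/-- (BU14) same side: `Sorted.total` and BU4.  Different sides: the common range is `{xB j}` (BU4: `u ≥ 0` and `-u ≥ 0`), where
both values are `yB j` (BU10). -/
lemma newE_wstar (D : XDrawing m n) (i i' : Fin m) (j : Fin n) (h : i ≠ i') :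
    (∀ t ∈ Set.uIcc (D.xA i) (D.xB j) ∩ Set.uIcc (D.xA i') (D.xB j), newE D i j t ≤ newE D i' j t) ∨
    (∀ t ∈ Set.uIcc (D.xA i) (D.xB j) ∩ Set.uIcc (D.xA i') (D.xB j), newE D i' j t ≤ newE D i j t) := by
  have hs := sg_cases D i j
  have hs' := sg_cases D i' j
  by_cases heq : sg D i' j = sg D i j
  · have hi : i ∈ SS D j (sg D i j) := (mem_SS_iff D i j hs).2 rfl
    have hi' : i' ∈ SS D j (sg D i j) := (mem_SS_iff D i' j hs).2 heq
    rcases (srt_spec D j hs).total hi hi' h with hB | hB
    · left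
      intro t ht
      have h1 := (mem_uIcc_iff D i j t).1 ht.1
      have h2 := (mem_uIcc_iff D i' j t).1 ht.2
      rw [heq] at h2
      unfold newE
      rw [heq]
      exact hB _ h1.1 h1.2 h2.2
    · right
      intro t ht
      have h1 := (mem_uIcc_iff D i j t).1 ht.1
      have h2 := (mem_uIcc_iff D i' j t).1 ht.2
      rw [heq] at h2
      unfold newE
      rw [heq]
      exact hB _ h1.1 h2.2 h1.2
  · left
    intro t ht
    have h1 := ((mem_uIcc_iff D i j t).1 ht.1).1
    have h2 := ((mem_uIcc_iff D i' j t).1 ht.2).1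
    have ht0 : t = D.xB j := by
      rcases hs with e | e <;> rcases hs' with e' | e'
      · exact absurd (e'.trans e.symm) heq
      · rw [e] at h1; rw [e'] at h2; linarith
      · rw [e] at h1; rw [e'] at h2; linarith
      · exact absurd (e'.trans e.symm) heq
    rw [ht0, newE_endB, newE_endB]

/-- the re-routed drawing -/
noncomputable def toW (D : XDrawing m n) : WDrawing m n where
  xA := D.xA
  yA := D.yA
  xB := D.xB
  yB := D.yB
  monoA := D.monoA
  monoB := D.monoB
  distinct := D.distinct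
  edge := newE D
  cont := newE_cont D
  endA := newE_endA D
  endB := newE_endB D
  avoidA := newE_avoidA D
  avoidB := newE_avoidB D
  wstar := newE_wstar D

/-- (BU15) `Set.ncard_le_ncard_of_injOn` with the map `p ↦ ((tau p.1.2 t p.1.1, p.1.2), (tau p.2.2 t p.2.1, p.2.2), t)`, where `t` is a
common abscissa of the two new edges (`Classical.choose` of `(toW D).Cross p.1 p.2`).  The image lies in `D.meets`: BU6, BU5; it is not
a common end: if both carriers are `w` and `t = xA w` then `newE D p.1.1 p.1.2 (xA w) = yA w`, so `p.1.1 = w` by BU12, likewise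
`p.2.1 = w`, contradicting `p.1.1 ≠ p.2.1`.  Injective: equal images have equal `t` and equal blue ends, then BU7. -/
lemma crossings_toW_le (D : XDrawing m n) (hfin : D.meets.Finite) : (toW D).crossings ≤ D.points := by
  classical
  obtain ⟨T, hTs⟩ : ∃ T : (Fin m × Fin n) × (Fin m × Fin n) → ℝ, ∀ p, (toW D).Cross p.1 p.2 →
      (T p ∈ Set.uIcc (D.xA p.1.1) (D.xB p.1.2) ∧ T p ∈ Set.uIcc (D.xA p.2.1) (D.xB p.2.2)) ∧
      newE D p.1.1 p.1.2 (T p) = newE D p.2.1 p.2.2 (T p) := by
    refine ⟨fun p => if h : (toW D).Cross p.1 p.2 then h.choose else 0, fun p h => ?_⟩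
    have hs := h.choose_spec
    simp only [dif_pos h]
    exact ⟨⟨hs.1.1, hs.1.2⟩, hs.2⟩
  have key : ∀ (i : Fin m) (j : Fin n) (t : ℝ) (w : Fin m), t ∈ Set.uIcc (D.xA i) (D.xB j) →
      tau D j t i = w → t = D.xA w → i = w := by
    intro i j t w ht hw e
    by_contra hne
    subst e
    exact newE_avoidA D i j w (fun e => hne e.symm) ht (by rw [newE_sel, hw, D.endA])
  unfold WDrawing.crossings XDrawing.points
  refine Set.ncard_le_ncard_of_injOn
    (fun p => ((tau D p.1.2 (T p) p.1.1, p.1.2), (tau D p.2.2 (T p) p.2.1, p.2.2), T p)) ?_ ?_ hfin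
  · rintro p ⟨h1, h2, h3⟩
    obtain ⟨⟨ha, hb⟩, he⟩ := hTs p h3
    refine ⟨h1, ⟨(tau_act D p.1.1 p.1.2 ha).2, (tau_act D p.2.1 p.2.2 hb).2⟩, ?_, ?_⟩
    · show D.edge (tau D p.1.2 (T p) p.1.1) p.1.2 (T p)
        = D.edge (tau D p.2.2 (T p) p.2.1) p.2.2 (T p)
      rw [← newE_sel, ← newE_sel]
      exact he
    · rintro ⟨e1, e2⟩
      have k1 := key p.1.1 p.1.2 (T p) _ ha rfl e2
      have k2 := key p.2.1 p.2.2 (T p) _ hb e1.symm e2
      exact h2 (k1.trans k2.symm)
  · rintro p ⟨h1, h2, h3⟩ q ⟨g1, g2, g3⟩ hpq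
    simp only [Prod.mk.injEq] at hpq
    obtain ⟨⟨e1, e2⟩, ⟨e3, e4⟩, e5⟩ := hpq
    obtain ⟨⟨ha, hb⟩, _⟩ := hTs p h3
    obtain ⟨⟨ha', hb'⟩, _⟩ := hTs q g3
    have k1 : p.1.1 = q.1.1 :=
      tau_inj D p.1.2 ha (by rw [e5, e2]; exact ha') (by rw [e1, e2, e5])
    have k2 : p.2.1 = q.2.1 :=
      tau_inj D p.2.2 hb (by rw [e5, e4]; exact hb') (by rw [e3, e4, e5])
    exact Prod.ext (Prod.ext k1 e2) (Prod.ext k2 e4)

/-- **Every x-monotone drawing of `K_{m,n}` has at least `Z(m,n)` crossing points.** -/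
theorem x_zarankiewicz (m n : ℕ) (D : XDrawing m n) (hfin : D.meets.Finite) :
    (m / 2) * ((m - 1) / 2) * ((n / 2) * ((n - 1) / 2)) ≤ D.points :=
  (wmono_zarankiewicz m n (toW D)).trans (crossings_toW_le D hfin)

end Vale.Agent.P040.Mono46
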