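import Mathlib

/-!
# Re-routing a family of curves by compare-exchange steps (rows CE*, IN*, FA*)

`γ x : ℝ → ℝ` is a curve used on `[0, ℓ x]`.  A compare-exchange step on `[0, L]` replaces two curves by their
pointwise minimum and maximum on `[0, L]` and leaves them unchanged on `[L, ∞)`.
-/

namespace Vale.Agent.P040.Mono46

open Finset

variable {ι : Type*} [DecidableEq ι]

/-- the curve `x` is weakly below the curve `y` on their common range -/
def Below (ℓ : ι → ℝ) (γ : ι → ℝ → ℝ) (x y : ι) : Prop :=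
  ∀ u, 0 ≤ u → u ≤ ℓ x → u ≤ ℓ y → γ x u ≤ γ y u

/-- `γ'` arises from `γ` by re-routing the curves of `T` on `[0, L]`; `σ u` says which old curve carries the new
curve at the abscissa `u` -/
structure Step (ℓ : ι → ℝ) (L : ℝ) (T : Finset ι) (γ γ' : ι → ℝ → ℝ) (σ : ℝ → Equiv.Perm ι) : Prop where
  ge : ∀ x u, L ≤ u → γ' x u = γ x u
  sel : ∀ x u, γ' x u = γ (σ u x) u
  fix : ∀ u, ∀ x ∉ T, σ u x = x
  one : ∀ u, L < u → σ u = 1
  cont : (∀ x ∈ T, ContinuousOn (γ x) (Set.Icc 0 (ℓ x))) → ∀ x ∈ T, ContinuousOn (γ' x) (Set.Icc 0 (ℓ x))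

/-- the excess of `z` over `a`, frozen from `L` on -/
noncomputable def dfc (γ : ι → ℝ → ℝ) (z a : ι) (L u : ℝ) : ℝ := max 0 (γ z (min u L) - γ a (min u L))

/-- compare-exchange: `z` gets the minimum, `a` the maximum, on `[0, L]` -/
noncomputable def ce (γ : ι → ℝ → ℝ) (z a : ι) (L : ℝ) : ι → ℝ → ℝ := fun x u =>
  if x = z then γ z u - dfc γ z a L u else if x = a then γ a u + dfc γ z a L u else γ x u

open Classical in
/-- the selector of a compare-exchange step -/
noncomputable def ceS (γ : ι → ℝ → ℝ) (z a : ι) (L : ℝ) (u : ℝ) : Equiv.Perm ι :=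
  if u ≤ L ∧ γ a u < γ z u then Equiv.swap z a else 1

variable {ℓ : ι → ℝ} {L : ℝ} {T : Finset ι} {γ γ1 γ2 : ι → ℝ → ℝ} {σ σ1 σ2 : ℝ → Equiv.Perm ι}

/-- (CE1) -/
lemma step_refl : Step ℓ L T γ γ (fun _ => 1) := by
  refine ⟨fun _ _ _ => rfl, fun _ _ => rfl, fun _ _ _ => rfl, fun _ _ => rfl, fun h => h⟩

/-- (CE2) composition: `γ2 x u = γ1 (σ2 u x) u = γ (σ1 u (σ2 u x)) u` (`Equiv.Perm.mul_apply`). -/
lemma Step.trans (h1 : Step ℓ L T γ γ1 σ1) (h2 : Step ℓ L T γ1 γ2 σ2) :
    Step ℓ L T γ γ2 (fun u => σ1 u * σ2 u) := by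
  refine ⟨fun x u hu => ?_, fun x u => ?_, fun u x hx => ?_, fun u hu => ?_, fun hc => ?_⟩
  · rw [h2.ge x u hu, h1.ge x u hu]
  · rw [h2.sel x u, h1.sel (σ2 u x) u, Equiv.Perm.mul_apply]
  · rw [Equiv.Perm.mul_apply, h2.fix u x hx, h1.fix u x hx]
  · show σ1 u * σ2 u = 1
    rw [h1.one u hu, h2.one u hu, one_mul]
  · exact h2.cont (h1.cont hc)

/-- (CE3) outside `T` nothing changes (`sel`, `fix`, `funext`). -/
lemma Step.out (h : Step ℓ L T γ γ1 σ) {x : ι} (hx : x ∉ T) : γ1 x = γ x := by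
  funext u
  rw [h.sel x u, h.fix u x hx]

/-- (CE4) a larger set.  `fix`: `x ∉ T'` implies `x ∉ T`.  `cont`: for `x ∈ T` use `h.cont`, for `x ∉ T` use CE3. -/
lemma Step.mono {T' : Finset ι} (h : Step ℓ L T γ γ1 σ) (hT : T ⊆ T') : Step ℓ L T' γ γ1 σ := by
  refine ⟨h.ge, h.sel, fun u x hx => h.fix u x (fun hx' => hx (hT hx')), h.one, ?_⟩
  intro hc x hx
  by_cases hxT : x ∈ T
  · exact h.cont (fun y hy => hc y (hT hy)) x hxT
  · rw [h.out hxT]
    exact hc x hx

/-- (CE5) a permutation that fixes the complement of `T` maps `T` into `T`: if `σ u x ∉ T` then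
`σ u (σ u x) = σ u x`, so `σ u x = x` by injectivity, contradiction. -/
lemma Step.mem (h : Step ℓ L T γ γ1 σ) (u : ℝ) {x : ι} (hx : x ∈ T) : σ u x ∈ T := by
  by_contra hn
  have h1 := h.fix u (σ u x) hn
  have h2 : σ u x = x := (σ u).injective h1
  rw [h2] at hn
  exact hn hx

/-- (CE6) values of the step on `[0, L]`: `min u L = u`; `a - max 0 (a - b) = min a b`, `b + max 0 (a - b) = max a b`
(cases `le_total`, `max_eq_left`, `max_eq_right`, `min_eq_left`, ...). -/
lemma ce_le {z a : ι} (hza : z ≠ a) {u : ℝ} (hu : u ≤ L) :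
    ce γ z a L z u = min (γ z u) (γ a u) ∧ ce γ z a L a u = max (γ z u) (γ a u) := by
  have haz : a ≠ z := fun h => hza h.symm
  unfold ce dfc
  rw [if_pos rfl, if_neg haz, if_pos rfl, min_eq_left hu]
  rcases le_total (γ z u) (γ a u) with h | h
  · rw [max_eq_left (by linarith), min_eq_left h, max_eq_right h]
    constructor <;> ring
  · rw [max_eq_right (by linarith), min_eq_right h, max_eq_left h]
    constructor <;> ring

/-- (CE7) the other curves (`if_neg`). -/
lemma ce_other {z a x : ι} (hz : x ≠ z) (ha : x ≠ a) : ce γ z a L x = γ x := by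
  funext u
  unfold ce
  rw [if_neg hz, if_neg ha]

/-- (CE8) from `L` on nothing changes: `min u L = L`, `dfc = max 0 (γ z L - γ a L) = 0`. -/
lemma ce_ge {z a : ι} (h : γ z L ≤ γ a L) (x : ι) {u : ℝ} (hu : L ≤ u) : ce γ z a L x u = γ x u := by
  have hd : dfc γ z a L u = 0 := by
    unfold dfc
    rw [min_eq_right hu]
    exact max_eq_left (by linarith)
  unfold ce
  by_cases hxz : x = z
  · rw [if_pos hxz, hd, hxz, sub_zero]
  · rw [if_neg hxz]
    by_cases hxa : x = a
    · rw [if_pos hxa, hd, hxa, add_zero]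
    · rw [if_neg hxa]

/-- (CE9) the selector: cases `u ≤ L` (CE6, then `γ a u < γ z u` or not: `Equiv.swap_apply_left`,
`swap_apply_right`, `swap_apply_of_ne_of_ne`) and `L < u` (CE8); cases `x = z`, `x = a`, other (CE7). -/
lemma ce_sel {z a : ι} (hza : z ≠ a) (h : γ z L ≤ γ a L) (x : ι) (u : ℝ) :
    ce γ z a L x u = γ (ceS γ z a L u x) u := by
  rcases le_or_gt u L with hu | hu
  · obtain ⟨e1, e2⟩ := ce_le (γ := γ) hza hu
    by_cases hlt : γ a u < γ z u
    · have hS : ceS γ z a L u = Equiv.swap z a := by unfold ceS; rw [if_pos ⟨hu, hlt⟩]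
      rw [hS]
      by_cases hxz : x = z
      · rw [hxz, Equiv.swap_apply_left, e1, min_eq_right hlt.le]
      · by_cases hxa : x = a
        · rw [hxa, Equiv.swap_apply_right, e2, max_eq_left hlt.le]
        · rw [Equiv.swap_apply_of_ne_of_ne hxz hxa, ce_other hxz hxa]
    · have hS : ceS γ z a L u = 1 := by unfold ceS; rw [if_neg (fun hh => hlt hh.2)]
      rw [hS, Equiv.Perm.one_apply]
      rw [not_lt] at hlt
      by_cases hxz : x = z
      · rw [hxz, e1, min_eq_left hlt]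
      · by_cases hxa : x = a
        · rw [hxa, e2, max_eq_right hlt]
        · rw [ce_other hxz hxa]
  · have hS : ceS γ z a L u = 1 := by
      unfold ceS; rw [if_neg (fun hh => absurd hh.1 (not_le.2 hu))]
    rw [hS, Equiv.Perm.one_apply, ce_ge h x hu.le]

/-- (CE10) `dfc` is continuous on `[0, M]`: `u ↦ min u L` is continuous and maps `[0, M]` into `[0, L]`, which is
contained in `[0, ℓ z]` and in `[0, ℓ a]` (`ContinuousOn.comp`, `ContinuousOn.mono`, `ContinuousOn.max`,
`continuousOn_const`, `ContinuousOn.sub`). -/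
lemma dfc_cont {z a : ι} (hL : 0 ≤ L) (hz : L ≤ ℓ z) (ha : L ≤ ℓ a)
    (cz : ContinuousOn (γ z) (Set.Icc 0 (ℓ z))) (ca : ContinuousOn (γ a) (Set.Icc 0 (ℓ a))) (M : ℝ) :
    ContinuousOn (dfc γ z a L) (Set.Icc 0 M) := by
  have hm : ContinuousOn (fun u : ℝ => min u L) (Set.Icc 0 M) :=
    (continuous_id.min continuous_const).continuousOn
  have hmap : ∀ (B : ℝ), L ≤ B →
      Set.MapsTo (fun u : ℝ => min u L) (Set.Icc 0 M) (Set.Icc 0 B) := by
    intro B hB u hu
    exact ⟨le_min hu.1 hL, (min_le_right _ _).trans hB⟩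
  have c1 : ContinuousOn (fun u => γ z (min u L)) (Set.Icc 0 M) := cz.comp hm (hmap _ hz)
  have c2 : ContinuousOn (fun u => γ a (min u L)) (Set.Icc 0 M) := ca.comp hm (hmap _ ha)
  show ContinuousOn (fun u => max 0 (γ z (min u L) - γ a (min u L))) (Set.Icc 0 M)
  exact ContinuousOn.sup continuousOn_const (c1.sub c2)

/-- (CE11) a compare-exchange step is a `Step`: `ge` = CE8, `sel` = CE9, `fix`: `x ≠ z, a`
(`swap_apply_of_ne_of_ne` or `Equiv.Perm.one_apply`), `one`: `if_neg`, `cont`: CE10 and CE7 (`ContinuousOn.sub`,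
`ContinuousOn.add`; unfold `ce`, cases `x = z`, `x = a`). -/
lemma ce_step {z a : ι} (hza : z ≠ a) (hzT : z ∈ T) (haT : a ∈ T) (hL : 0 ≤ L) (hz : L ≤ ℓ z)
    (ha : L ≤ ℓ a) (h : γ z L ≤ γ a L) : Step ℓ L T γ (ce γ z a L) (ceS γ z a L) := by
  refine ⟨fun x u hu => ce_ge h x hu, fun x u => ce_sel hza h x u, ?_, ?_, ?_⟩
  · intro u x hx
    have hxz : x ≠ z := fun e => hx (e ▸ hzT)
    have hxa : x ≠ a := fun e => hx (e ▸ haT)
    unfold ceS
    split_ifs
    · exact Equiv.swap_apply_of_ne_of_ne hxz hxa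
    · rfl
  · intro u hu
    unfold ceS
    rw [if_neg]
    exact fun hh => absurd hh.1 (not_le.2 hu)
  · intro hc x hx
    by_cases hxz : x = z
    · subst hxz
      have e : ce γ x a L x = fun u => γ x u - dfc γ x a L u := by
        funext u
        simp [ce]
      rw [e]
      exact (hc x hx).sub (dfc_cont hL hz ha (hc x hzT) (hc a haT) _)
    · by_cases hxa : x = a
      · subst hxa
        have e : ce γ z x L x = fun u => γ x u + dfc γ z x L u := by
          funext u
          simp [ce, hxz]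
        rw [e]
        exact (hc x hx).add (dfc_cont hL hz ha (hc z hzT) (hc x haT) _)
      · rw [ce_other hxz hxa]
        exact hc x hx

end Vale.Agent.P040.Mono46
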