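import Vale.Agent.P040.Mono46.CE

/-!
# Inserting a curve into a weakly sorted family (rows IN*)
-/

namespace Vale.Agent.P040.Mono46

open Finset

variable {ι : Type*} [DecidableEq ι]

/-- (IN1) One step of IN2.  `γ1 = ce γ z a L`, `(γ2, σ2)` re-routes `a :: l` starting from `γ1`; then `z` is below
everybody.  Let `x ∈ a :: l`, `0 ≤ u ≤ ℓ z, ℓ x`.  `γ2 z = γ1 z` (`Step.out`).
Case `u ≤ L`: `γ1 z u = min (γ z u) (γ a u)` (`ce_le`); `γ2 x u = γ1 y u` with `y = σ2 u x ∈ a :: l`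
(`Step.sel`, `Step.mem`); if `y = a`: `γ1 a u = max ..`; if `y ∈ l`: `γ1 y u = γ y u ≥ γ a u` (`ce_other`, `hal`).
Case `L < u`: `γ2 x u = γ1 x u = γ x u`, `γ2 z u = γ z u` (`Step.ge`, `ce_ge`), `hz`. -/
lemma insA_step {ℓ : ι → ℝ} {L : ℝ} {l : List ι} {z a : ι} {γ γ2 : ι → ℝ → ℝ} {σ2 : ℝ → Equiv.Perm ι}
    (hzl : z ∉ a :: l) (hal' : a ∉ l) (hLa : L ≤ ℓ a) (hLl : ∀ x ∈ l, L ≤ ℓ x)
    (hal : ∀ y ∈ l, Below ℓ γ a y)
    (hz : ∀ x ∈ a :: l, ∀ u, L ≤ u → u ≤ ℓ z → u ≤ ℓ x → γ z u ≤ γ x u)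
    (h2 : Step ℓ L (insert a l.toFinset) (ce γ z a L) γ2 σ2) :
    ∀ x ∈ a :: l, Below ℓ γ2 z x := by
  intro x hx u hu0 huz hux
  have hzT : z ∉ insert a l.toFinset := by
    simpa [List.mem_cons] using hzl
  have hza : z ≠ a := fun e => hzl (e ▸ List.mem_cons_self)
  have e2z : γ2 z = ce γ z a L z := h2.out hzT
  have hxT : x ∈ insert a l.toFinset := by
    simpa [List.mem_cons] using hx
  rw [e2z]
  rcases le_or_gt u L with huL | huL
  · rw [(ce_le hza huL).1, h2.sel x u]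
    have hy := h2.mem u hxT
    rw [Finset.mem_insert, List.mem_toFinset] at hy
    rcases hy with hy | hy
    · rw [hy, (ce_le hza huL).2]
      exact le_trans (min_le_left _ _) (le_max_left _ _)
    · have hyz : σ2 u x ≠ z := fun e => hzl (e ▸ List.mem_cons_of_mem _ hy)
      have hya : σ2 u x ≠ a := fun e => hal' (e ▸ hy)
      rw [ce_other hyz hya]
      exact le_trans (min_le_right _ _) (hal _ hy u hu0 (huL.trans hLa) (huL.trans (hLl _ hy)))
  · have hzL : γ z L ≤ γ a L := hz a List.mem_cons_self L le_rfl (huL.le.trans huz) hLa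
    rw [h2.ge x u huL.le, ce_ge hzL z huL.le, ce_ge hzL x huL.le]
    exact hz x hx u huL.le huz hux

/-- (IN2) Insertion below everybody.  Induction on `l` (generalizing `z`, `γ`).  `[]`: `γ' = γ`, `step_refl`.
`a :: l`: `γ z L ≤ γ a L` by `hz` at `u = L`; `γ1 = ce γ z a L` (`ce_step` with `T = insert z (a :: l).toFinset`);
induction hypothesis for `(l, a, γ1)`: the curves of `l` are unchanged (`ce_other`), `γ1 a u = γ a u` for
`L ≤ u` (`ce_ge`), so its hypotheses follow from `List.pairwise_cons`; then `Step.trans` (after `Step.mono`),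
`List.pairwise_cons` and IN1. -/
theorem insA (ℓ : ι → ℝ) (L : ℝ) (hL : 0 ≤ L) : ∀ (l : List ι) (z : ι) (γ : ι → ℝ → ℝ), z ∉ l → l.Nodup →
    L ≤ ℓ z → (∀ x ∈ l, L ≤ ℓ x) → l.Pairwise (Below ℓ γ) →
    (∀ x ∈ l, ∀ u, L ≤ u → u ≤ ℓ z → u ≤ ℓ x → γ z u ≤ γ x u) →
    ∃ (γ' : ι → ℝ → ℝ) (σ : ℝ → Equiv.Perm ι),
      Step ℓ L (insert z l.toFinset) γ γ' σ ∧ (z :: l).Pairwise (Below ℓ γ') := by
  intro l
  induction l with
  | nil =>
    intro z γ _ _ _ _ _ _
    exact ⟨γ, fun _ => 1, step_refl, List.pairwise_singleton _ _⟩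
  | cons a l ih =>
    intro z γ hzl hnd hLz hLl hpw hz
    have hza : z ≠ a := fun h => hzl (h ▸ List.mem_cons_self)
    have hzl' : z ∉ l := fun h => hzl (List.mem_cons_of_mem _ h)
    rw [List.nodup_cons] at hnd
    obtain ⟨hal', hnd'⟩ := hnd
    rw [List.pairwise_cons] at hpw
    obtain ⟨hal, hpw'⟩ := hpw
    have hLa : L ≤ ℓ a := hLl a List.mem_cons_self
    have hLl' : ∀ x ∈ l, L ≤ ℓ x := fun x hx => hLl x (List.mem_cons_of_mem _ hx)
    have hzaL : γ z L ≤ γ a L := hz a List.mem_cons_self L le_rfl hLz hLa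
    have hs1 : Step ℓ L (insert z (a :: l).toFinset) γ (ce γ z a L) (ceS γ z a L) :=
      ce_step hza (by simp) (by simp) hL hLz hLa hzaL
    have hne : ∀ x ∈ l, x ≠ z ∧ x ≠ a :=
      fun x hx => ⟨fun h => hzl' (h ▸ hx), fun h => hal' (h ▸ hx)⟩
    have hpw1 : l.Pairwise (Below ℓ (ce γ z a L)) := by
      refine List.Pairwise.imp_of_mem ?_ hpw'
      intro x y hx hy hxy
      unfold Below
      rw [ce_other (hne x hx).1 (hne x hx).2, ce_other (hne y hy).1 (hne y hy).2]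
      exact hxy
    have hz1 : ∀ x ∈ l, ∀ u, L ≤ u → u ≤ ℓ a → u ≤ ℓ x → ce γ z a L a u ≤ ce γ z a L x u := by
      intro x hx u hu hua hux
      rw [ce_ge hzaL a hu, ce_ge hzaL x hu]
      exact hal x hx u (hL.trans hu) hua hux
    obtain ⟨γ2, σ2, hs2, hpw2⟩ := ih a (ce γ z a L) hal' hnd' hLa hLl' hpw1 hz1
    refine ⟨γ2, fun u => ceS γ z a L u * σ2 u, hs1.trans (hs2.mono ?_), ?_⟩
    · intro x hx
      simp only [List.toFinset_cons, mem_insert] at hx ⊢
      exact Or.inr hx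
    · rw [List.pairwise_cons]
      exact ⟨insA_step hzl hal' hLa hLl' hal hz hs2, hpw2⟩

/-- (IN3) One step of IN4.  `γ1 = ce γ a z L` (now `a` gets the minimum), `(γ2, σ2)` re-routes `z :: l` starting from
`γ1`; then `a` is below everybody.  Let `y ∈ z :: l`, `0 ≤ u ≤ ℓ a, ℓ y`.  `γ2 a = γ1 a` (`Step.out`).
Case `u ≤ L`: `γ1 a u = min (γ a u) (γ z u)`; `γ2 y u = γ1 w u`, `w = σ2 u y ∈ z :: l`; `w = z`: maximum; `w ∈ l`:
`γ w u ≥ γ a u`.  Case `L < u`: `y ≠ z` since `ℓ z = L`; all curves are unchanged, `hal`. -/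
lemma insB_step {ℓ : ι → ℝ} {L : ℝ} {l : List ι} {z a : ι} {γ γ2 : ι → ℝ → ℝ} {σ2 : ℝ → Equiv.Perm ι}
    (hzl : z ∉ a :: l) (hal' : a ∉ l) (hz : ℓ z = L) (hLa : L ≤ ℓ a) (hLl : ∀ x ∈ l, L ≤ ℓ x)
    (hal : ∀ y ∈ l, Below ℓ γ a y) (haz : γ a L ≤ γ z L)
    (h2 : Step ℓ L (insert z l.toFinset) (ce γ a z L) γ2 σ2) :
    ∀ y ∈ z :: l, Below ℓ γ2 a y := by
  have hza : z ≠ a := fun h => hzl (h ▸ List.mem_cons_self)
  have hzl' : z ∉ l := fun h => hzl (List.mem_cons_of_mem _ h)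
  have haT : a ∉ insert z l.toFinset := by
    simp only [mem_insert, List.mem_toFinset, not_or]
    exact ⟨fun h => hza h.symm, hal'⟩
  have ha2 : γ2 a = ce γ a z L a := h2.out haT
  intro y hy u h0 hua huy
  rw [ha2]
  have hyT : y ∈ insert z l.toFinset := by
    rcases List.mem_cons.1 hy with rfl | hy'
    · exact mem_insert_self _ _
    · exact mem_insert_of_mem (List.mem_toFinset.2 hy')
  rcases le_or_gt u L with hu | hu
  · have hce := ce_le (γ := γ) (L := L) (Ne.symm hza) hu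
    rw [hce.1, h2.sel y u]
    have hw := h2.mem u hyT
    rcases mem_insert.1 hw with hw' | hw'
    · rw [hw', hce.2]
      exact min_le_max
    · have hwl : σ2 u y ∈ l := List.mem_toFinset.1 hw'
      have hwa : σ2 u y ≠ a := fun h => hal' (h ▸ hwl)
      have hwz : σ2 u y ≠ z := fun h => hzl' (h ▸ hwl)
      rw [ce_other hwa hwz]
      exact (min_le_left _ _).trans (hal _ hwl u h0 hua (hu.trans (hLl _ hwl)))
  · rcases List.mem_cons.1 hy with rfl | hy'
    · rw [hz] at huy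
      exact absurd huy (not_le.2 hu)
    · rw [h2.ge y u hu.le, ce_ge haz y hu.le, ce_ge haz a hu.le]
      exact hal y hy' u h0 hua huy

/-- (IN4) Insertion of the shortest curve `z` into a weakly sorted family.  Induction on `l` (generalizing `γ`).
`[]`: `l' = [z]`.  `a :: l`: if `γ z L < γ a L` then `γ z L ≤ γ x L` for all `x ∈ a :: l` (`Below a x` at `u = L`) and IN2
gives `l' = z :: a :: l` (in `hz` of IN2 `u = L` because `u ≤ ℓ z = L`).  If `γ a L < γ z L`: `γ1 = ce γ a z L`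
(`ce_step`), induction hypothesis for `(l, γ1)` (`ce_other`, `ce_ge`), `l' = a :: l2`, IN3 (transport along
`List.Perm.mem_iff`), `List.Perm.cons`, `List.Perm.swap`, `Step.trans`, `Step.mono`. -/
theorem insB (ℓ : ι → ℝ) (L : ℝ) (hL : 0 ≤ L) (z : ι) (hz : ℓ z = L) : ∀ (l : List ι) (γ : ι → ℝ → ℝ),
    z ∉ l → l.Nodup → (∀ x ∈ l, L ≤ ℓ x) → l.Pairwise (Below ℓ γ) → (∀ x ∈ l, γ x L ≠ γ z L) →
    ∃ (γ' : ι → ℝ → ℝ) (σ : ℝ → Equiv.Perm ι) (l' : List ι), l'.Perm (z :: l) ∧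
      Step ℓ L (insert z l.toFinset) γ γ' σ ∧ l'.Pairwise (Below ℓ γ') := by
  intro l
  induction l with
  | nil =>
    intro γ _ _ _ _ _
    exact ⟨γ, fun _ => 1, [z], List.Perm.refl _, step_refl, List.pairwise_singleton _ _⟩
  | cons a l ih =>
    intro γ hzl hnd hLl hpw hne
    have hLz : L ≤ ℓ z := hz.ge
    have hLa : L ≤ ℓ a := hLl a (List.mem_cons_self)
    have hLl' : ∀ x ∈ l, L ≤ ℓ x := fun x hx => hLl x (List.mem_cons_of_mem _ hx)
    obtain ⟨hal, hpl⟩ := List.pairwise_cons.1 hpw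
    obtain ⟨hal', hndl⟩ := List.nodup_cons.1 hnd
    have hza : z ≠ a := fun e => hzl (e ▸ List.mem_cons_self)
    have hzl' : z ∉ l := fun h => hzl (List.mem_cons_of_mem _ h)
    rcases lt_or_gt_of_ne (hne a List.mem_cons_self) with haz | hza'
    · -- `γ a L < γ z L`
      have hle : γ a L ≤ γ z L := haz.le
      have hother : ∀ x ∈ l, ce γ a z L x = γ x := by
        intro x hx
        exact ce_other (fun e => hal' (e ▸ hx)) (fun e => hzl' (e ▸ hx))
      have hpl1 : l.Pairwise (Below ℓ (ce γ a z L)) := by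
        refine List.Pairwise.imp_of_mem ?_ hpl
        intro x y hx hy hxy u hu hux huy
        rw [hother x hx, hother y hy]
        exact hxy u hu hux huy
      have hne1 : ∀ x ∈ l, ce γ a z L x L ≠ ce γ a z L z L := by
        intro x hx
        rw [hother x hx, ce_ge hle z le_rfl]
        exact hne x (List.mem_cons_of_mem _ hx)
      obtain ⟨γ2, σ2, l2, hperm, hstep2, hpw2⟩ := ih (ce γ a z L) hzl' hndl hLl' hpl1 hne1
      have hsub : insert z l.toFinset ⊆ insert z (a :: l).toFinset := by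
        rw [List.toFinset_cons]
        exact Finset.insert_subset_insert _ (Finset.subset_insert _ _)
      have hstep1 : Step ℓ L (insert z (a :: l).toFinset) γ (ce γ a z L) (ceS γ a z L) := by
        refine ce_step hza.symm ?_ (Finset.mem_insert_self _ _) hL hLa hLz hle
        rw [List.toFinset_cons]
        exact Finset.mem_insert_of_mem (Finset.mem_insert_self _ _)
      refine ⟨γ2, fun u => ceS γ a z L u * σ2 u, a :: l2,
        (List.Perm.cons a hperm).trans (List.Perm.swap z a l), hstep1.trans (hstep2.mono hsub), ?_⟩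
      refine List.pairwise_cons.2 ⟨?_, hpw2⟩
      intro y hy
      exact insB_step hzl hal' hz hLa hLl' hal hle hstep2 y (hperm.mem_iff.1 hy)
    · -- `γ z L < γ a L`
      have hz' : ∀ x ∈ a :: l, ∀ u, L ≤ u → u ≤ ℓ z → u ≤ ℓ x → γ z u ≤ γ x u := by
        intro x hx u hu1 hu2 _
        have hu : u = L := le_antisymm (hz ▸ hu2) hu1
        subst hu
        rcases List.mem_cons.1 hx with rfl | hx'
        · exact hza'.le
        · exact hza'.le.trans (hal x hx' _ hL hLa (hLl' x hx'))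
      obtain ⟨γ', σ, hstep, hpw'⟩ := insA ℓ L hL (a :: l) z γ hzl hnd hLz hLl hpw hz'
      exact ⟨γ', σ, z :: a :: l, List.Perm.refl _, hstep, hpw'⟩

end Vale.Agent.P040.Mono46
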