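import Mathlib

/-!
# x-monotone drawings of the complete bipartite graph
-/

namespace Vale.Agent.P040.Mono46

/-- An x-monotone drawing of `K_{m,n}` in the plane.  The vertices of the first class are the points
`(xA i, yA i)`, those of the second class the points `(xB j, yB j)`; all x-coordinates are distinct
and each class is labelled from left to right.  The edge `i j` is the graph of the function
`edge i j`, continuous on the interval between the abscissae of its two ends.  An edge does not pass
through a vertex other than its ends, and two edges with a common end in the second class have no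
other common point. -/
structure WDrawing (m n : ℕ) where
  xA : Fin m → ℝ
  yA : Fin m → ℝ
  xB : Fin n → ℝ
  yB : Fin n → ℝ
  monoA : StrictMono xA
  monoB : StrictMono xB
  distinct : ∀ i j, xA i ≠ xB j
  edge : Fin m → Fin n → ℝ → ℝ
  cont : ∀ i j, ContinuousOn (edge i j) (Set.uIcc (xA i) (xB j))
  endA : ∀ i j, edge i j (xA i) = yA i
  endB : ∀ i j, edge i j (xB j) = yB j
  avoidA : ∀ i j i', i' ≠ i → xA i' ∈ Set.uIcc (xA i) (xB j) → edge i j (xA i') ≠ yA i'
  avoidB : ∀ i j j', j' ≠ j → xB j' ∈ Set.uIcc (xA i) (xB j) → edge i j (xB j') ≠ yB j'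
  wstar : ∀ i i' j, i ≠ i' →
    (∀ t ∈ Set.uIcc (xA i) (xB j) ∩ Set.uIcc (xA i') (xB j), edge i j t ≤ edge i' j t) ∨
    (∀ t ∈ Set.uIcc (xA i) (xB j) ∩ Set.uIcc (xA i') (xB j), edge i' j t ≤ edge i j t)

/-- Two edges meet: their graphs have a common point. -/
def WDrawing.Cross {m n : ℕ} (D : WDrawing m n) (e f : Fin m × Fin n) : Prop :=
  ∃ t ∈ Set.uIcc (D.xA e.1) (D.xB e.2) ∩ Set.uIcc (D.xA f.1) (D.xB f.2),
    D.edge e.1 e.2 t = D.edge f.1 f.2 t

/-- The number of crossing pairs: the number of unordered pairs of edges without common end that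
meet (each pair is listed once, the edge with the smaller end in the second class first).  The number
of crossing points of the drawing is at least this number. -/
noncomputable def WDrawing.crossings {m n : ℕ} (D : WDrawing m n) : ℕ :=
  Set.ncard {p : (Fin m × Fin n) × (Fin m × Fin n) |
    p.1.2 < p.2.2 ∧ p.1.1 ≠ p.2.1 ∧ D.Cross p.1 p.2}

end Vale.Agent.P040.Mono46
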