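import Vale.Agent.P040.Mono.Star

/-!
# One weakly sorted star of a monotone drawing (rows WS*)

As `Mono/Star.lean`, but two edges of the star may touch: they are only weakly ordered on their common range.
-/

namespace Vale.Agent.P040.Mono46

open Finset Vale.Agent.P040.Mono

/-- The star of one blue vertex `(bx, by_)` with gap `g`; two edges are weakly ordered on their common range. -/
structure WStar (n g : ℕ) (X Y : ℕ → ℝ) (bx by_ : ℝ) (α : ℕ → ℝ → ℝ) : Prop where
  hX : ∀ x y, x < y → y < n → X x < X y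
  hg : g ≤ n
  left : ∀ x, x < g → X x < bx
  right : ∀ x, g ≤ x → x < n → bx < X x
  cont : ∀ x < n, ContinuousOn (α x) (Set.uIcc (X x) bx)
  endR : ∀ x < n, α x (X x) = Y x
  endB : ∀ x < n, α x bx = by_
  avoid : ∀ x < n, ∀ y < n, y ≠ x → X y ∈ Set.uIcc (X x) bx → α x (X y) ≠ Y y
  wk : ∀ x < n, ∀ y < n, x ≠ y →
    (∀ t ∈ Set.uIcc (X x) bx ∩ Set.uIcc (X y) bx, α x t ≤ α y t) ∨
    (∀ t ∈ Set.uIcc (X x) bx ∩ Set.uIcc (X y) bx, α y t ≤ α x t)

/-- the abscissa of the one of the reds `x`, `y` (on the same side) that is nearer to the blue vertex -/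
def nr (g : ℕ) (X : ℕ → ℝ) (x y : ℕ) : ℝ := if g ≤ x then X (min x y) else X (max x y)

/-- the edge to `x` is below the edge to `y` (compared at the end of the shorter one) -/
def Pr (g : ℕ) (X : ℕ → ℝ) (α : ℕ → ℝ → ℝ) (x y : ℕ) : Prop := α x (nr g X x y) < α y (nr g X x y)

open Classical in
/-- the height of the edge to `x`: the number of edges on the same side that are below it -/
noncomputable def hgtW (n g : ℕ) (X : ℕ → ℝ) (α : ℕ → ℝ → ℝ) (x : ℕ) : ℤ :=
  (((range n).filter fun y => (g ≤ y ↔ g ≤ x) ∧ y ≠ x ∧ Pr g X α y x).card : ℤ)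

variable {n g : ℕ} {X Y : ℕ → ℝ} {bx by_ : ℝ} {α : ℕ → ℝ → ℝ}

/-- (WS0) `nr` is symmetric (`min_comm`, `max_comm`) and lies in both ranges: on the right side
`bx < X (min x y) ≤ X x, X y` (`right`, `hX`), on the left side `X x, X y ≤ X (max x y) < bx`
(`Set.uIcc_of_ge`, `Set.uIcc_of_le`; cases `x < y` or `y < x`, `min_eq_left`, ...). -/
lemma WStar.nr_mem (S : WStar n g X Y bx by_ α) {x y : ℕ} (hx : x < n) (hy : y < n)
    (hs : g ≤ x ↔ g ≤ y) :
    nr g X x y = nr g X y x ∧ nr g X x y ∈ Set.uIcc (X x) bx ∩ Set.uIcc (X y) bx ∧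
      (nr g X x y = X x ∨ nr g X x y = X y) := by
  have hmono : ∀ a b, a ≤ b → b < n → X a ≤ X b := by
    intro a b hab hb
    rcases Nat.lt_or_ge a b with h | h
    · exact (S.hX a b h hb).le
    · have : a = b := le_antisymm hab h
      rw [this]
  by_cases hgx : g ≤ x
  · have hgy : g ≤ y := hs.1 hgx
    have e1 : nr g X x y = X (min x y) := by simp [nr, hgx]
    have e2 : nr g X y x = X (min x y) := by simp [nr, hgy, min_comm]
    have hbx := S.right x hgx hx
    have hby := S.right y hgy hy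
    rw [e1, e2, Set.uIcc_of_ge hbx.le, Set.uIcc_of_ge hby.le]
    refine ⟨rfl, ⟨⟨?_, hmono _ _ (min_le_left x y) hx⟩, ⟨?_, hmono _ _ (min_le_right x y) hy⟩⟩, ?_⟩
    · rcases min_choice x y with h | h <;> rw [h] <;> [exact hbx.le; exact hby.le]
    · rcases min_choice x y with h | h <;> rw [h] <;> [exact hbx.le; exact hby.le]
    · rcases min_choice x y with h | h <;> rw [h] <;> simp
  · have hgy : ¬ g ≤ y := fun h => hgx (hs.2 h)
    have e1 : nr g X x y = X (max x y) := by simp [nr, hgx]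
    have e2 : nr g X y x = X (max x y) := by simp [nr, hgy, max_comm]
    have hbx := S.left x (not_le.1 hgx)
    have hby := S.left y (not_le.1 hgy)
    have hm : max x y < n := max_lt hx hy
    rw [e1, e2, Set.uIcc_of_le hbx.le, Set.uIcc_of_le hby.le]
    refine ⟨rfl, ⟨⟨hmono _ _ (le_max_left x y) hm, ?_⟩, ⟨hmono _ _ (le_max_right x y) hm, ?_⟩⟩, ?_⟩
    · rcases max_choice x y with h | h <;> rw [h] <;> [exact hbx.le; exact hby.le]
    · rcases max_choice x y with h | h <;> rw [h] <;> [exact hbx.le; exact hby.le]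
    · rcases max_choice x y with h | h <;> rw [h] <;> simp

/-- (WS1) the two values at `nr` differ: `nr = X x` or `X y` (WS0), `endR` and `avoid`. -/
lemma WStar.nr_ne (S : WStar n g X Y bx by_ α) {x y : ℕ} (hx : x < n) (hy : y < n) (hxy : x ≠ y)
    (hs : g ≤ x ↔ g ≤ y) : α x (nr g X x y) ≠ α y (nr g X x y) := by
  obtain ⟨_, hmem, h | h⟩ := S.nr_mem hx hy hs
  · rw [h, S.endR x hx]
    have hm : X x ∈ Set.uIcc (X y) bx := by rw [← h]; exact hmem.2
    exact (S.avoid y hy x hx hxy hm).symm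
  · rw [h, S.endR y hy]
    have hm : X y ∈ Set.uIcc (X x) bx := by rw [← h]; exact hmem.1
    exact S.avoid x hx y hy (Ne.symm hxy) hm

/-- (WS2) `Pr x y` iff the edge to `x` is weakly below the edge to `y` on the whole common range.
`→`: by `wk` otherwise `α y ≤ α x` everywhere, in particular at `nr` (WS0), contradiction.  `←`: `≤` at `nr` and WS1. -/
lemma WStar.pr_iff (S : WStar n g X Y bx by_ α) {x y : ℕ} (hx : x < n) (hy : y < n) (hxy : x ≠ y)
    (hs : g ≤ x ↔ g ≤ y) :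
    Pr g X α x y ↔ ∀ t ∈ Set.uIcc (X x) bx ∩ Set.uIcc (X y) bx, α x t ≤ α y t := by
  have hm := (S.nr_mem hx hy hs).2.1
  constructor
  · intro h
    rcases S.wk x hx y hy hxy with h' | h'
    · exact h'
    · exact absurd (h' _ hm) (not_le.2 h)
  · intro h
    exact lt_of_le_of_ne (h _ hm) (S.nr_ne hx hy hxy hs)

/-- (WS3) totality and asymmetry: WS1, `nr` symmetric (WS0), `lt_or_gt_of_ne`, `lt_asymm`. -/
lemma WStar.pr_total (S : WStar n g X Y bx by_ α) {x y : ℕ} (hx : x < n) (hy : y < n) (hxy : x ≠ y)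
    (hs : g ≤ x ↔ g ≤ y) : (Pr g X α x y ∨ Pr g X α y x) ∧ ¬ (Pr g X α x y ∧ Pr g X α y x) := by
  obtain ⟨hsym, -, -⟩ := S.nr_mem hx hy hs
  have hne := S.nr_ne hx hy hxy hs
  unfold Pr
  rw [← hsym]
  constructor
  · rcases lt_or_gt_of_ne hne with h | h
    · exact Or.inl h
    · exact Or.inr h
  · rintro ⟨h1, h2⟩
    exact lt_asymm h1 h2

/-- (WS4) transitivity.  Otherwise `Pr z x` (WS3).  Let `w` be the one of `x, y, z` nearest to the blue vertex
(smallest index on the right side, largest on the left side); `t = X w` lies in all three ranges, and by WS2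
`α x t ≤ α y t ≤ α z t ≤ α x t`, so all three values are equal to `Y w` (`endR`), contradicting `avoid`. -/
lemma WStar.pr_trans (S : WStar n g X Y bx by_ α) {x y z : ℕ} (hx : x < n) (hy : y < n) (hz : z < n)
    (hxy : x ≠ y) (hyz : y ≠ z) (hxz : x ≠ z) (hs : g ≤ x ↔ g ≤ y) (hs' : g ≤ y ↔ g ≤ z)
    (h1 : Pr g X α x y) (h2 : Pr g X α y z) : Pr g X α x z := by
  by_contra hcon
  have h3 : Pr g X α z x := by
    rcases (S.pr_total hx hz hxz (hs.trans hs')).1 with h | h
    · exact absurd h hcon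
    · exact h
  have l1 := (S.pr_iff hx hy hxy hs).1 h1
  have l2 := (S.pr_iff hy hz hyz hs').1 h2
  have l3 := (S.pr_iff hz hx (Ne.symm hxz) (hs.trans hs').symm).1 h3
  have key : ∀ t, t ∈ Set.uIcc (X x) bx → t ∈ Set.uIcc (X y) bx → t ∈ Set.uIcc (X z) bx →
      (t = X x ∨ t = X y ∨ t = X z) → False := by
    intro t tx ty tz ht
    have e1 := l1 t ⟨tx, ty⟩
    have e2 := l2 t ⟨ty, tz⟩
    have e3 := l3 t ⟨tz, tx⟩
    have exy : α x t = α y t := le_antisymm e1 (e2.trans e3)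
    have exz : α x t = α z t := le_antisymm (e1.trans e2) e3
    rcases ht with rfl | rfl | rfl
    · exact S.avoid y hy x hx hxy ty (by rw [← exy, S.endR x hx])
    · exact S.avoid x hx y hy (Ne.symm hxy) tx (by rw [exy, S.endR y hy])
    · exact S.avoid x hx z hz (Ne.symm hxz) tx (by rw [exz, S.endR z hz])
  have sub : ∀ {a c : ℕ}, X a ∈ Set.uIcc (X c) bx → Set.uIcc (X a) bx ⊆ Set.uIcc (X c) bx :=
    fun h => Set.uIcc_subset_uIcc h Set.right_mem_uIcc
  obtain ⟨_, hm1, ha | ha⟩ := S.nr_mem hx hy hs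
  · rw [ha] at hm1
    obtain ⟨_, hm2, hb | hb⟩ := S.nr_mem hx hz (hs.trans hs')
    · rw [hb] at hm2
      exact key (X x) hm1.1 hm1.2 hm2.2 (Or.inl rfl)
    · rw [hb] at hm2
      exact key (X z) hm2.1 (sub hm1.2 hm2.1) hm2.2 (Or.inr (Or.inr rfl))
  · rw [ha] at hm1
    obtain ⟨_, hm2, hb | hb⟩ := S.nr_mem hy hz hs'
    · rw [hb] at hm2
      exact key (X y) hm1.1 hm1.2 hm2.2 (Or.inr (Or.inl rfl))
    · rw [hb] at hm2
      exact key (X z) (sub hm1.1 hm2.1) hm2.1 hm2.2 (Or.inr (Or.inr rfl))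

/-- (WS5) the rank is strictly monotone.  `←`: the filter of `x` is strictly contained in the filter of `y`
(WS4; `x` itself belongs to the second one only), `card_lt_card`.  `→`: otherwise `Pr y x` (WS3) and the first part
gives `hgtW y < hgtW x`.  Compare `hgt_lt_iff` in `Mono/Star.lean`. -/
lemma WStar.hgtW_lt_iff (S : WStar n g X Y bx by_ α) {x y : ℕ} (hx : x < n) (hy : y < n)
    (hxy : x ≠ y) (hs : g ≤ x ↔ g ≤ y) : hgtW n g X α x < hgtW n g X α y ↔ Pr g X α x y := by
  classical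
  have key : ∀ {x y : ℕ}, x < n → y < n → x ≠ y → (g ≤ x ↔ g ≤ y) → Pr g X α x y →
      hgtW n g X α x < hgtW n g X α y := by
    intro x y hx hy hxy hs h
    unfold hgtW
    apply Nat.cast_lt.mpr
    apply card_lt_card
    rw [ssubset_iff_of_subset]
    · refine ⟨x, ?_, ?_⟩
      · rw [mem_filter]
        exact ⟨mem_range.2 hx, hs, hxy, h⟩
      · rw [mem_filter]
        intro hz
        exact hz.2.2.1 rfl
    · intro z hz
      rw [mem_filter] at hz ⊢
      obtain ⟨hzn, hzs, hzx, hzp⟩ := hz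
      have hzn' := mem_range.1 hzn
      have hzy : z ≠ y := by
        rintro rfl
        exact (S.pr_total hx hy hxy hs).2 ⟨h, hzp⟩
      exact ⟨hzn, hzs.trans hs, hzy, S.pr_trans hzn' hx hy hzx hxy hzy hzs hs hzp h⟩
  constructor
  · intro h
    by_contra hcon
    have h2 : Pr g X α y x := ((S.pr_total hx hy hxy hs).1).resolve_left hcon
    have h3 := key hy hx hxy.symm hs.symm h2
    exact lt_asymm h h3
  · exact key hx hy hxy hs

/-- (WS6) the rank order is the vertical order at every common abscissa where the two edges differ.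
WS5, WS2 (`→`: `≤` and `≠`; `←`: otherwise `Pr y x` by WS3, so `α y t ≤ α x t`). -/
lemma WStar.sgn (S : WStar n g X Y bx by_ α) {x y : ℕ} (hx : x < n) (hy : y < n) (hxy : x ≠ y)
    (hs : g ≤ x ↔ g ≤ y) {t : ℝ} (ht : t ∈ Set.uIcc (X x) bx ∩ Set.uIcc (X y) bx)
    (hne : α x t ≠ α y t) : (hgtW n g X α x < hgtW n g X α y ↔ α x t < α y t) := by
  rw [S.hgtW_lt_iff hx hy hxy hs]
  constructor
  · intro h
    exact lt_of_le_of_ne ((S.pr_iff hx hy hxy hs).mp h t ht) hne
  · intro h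
    rcases (S.pr_total hx hy hxy hs).1 with h1 | h1
    · exact h1
    · exfalso
      have h2 := (S.pr_iff hy hx hxy.symm hs.symm).mp h1 t ⟨ht.2, ht.1⟩
      exact absurd h (not_lt.mpr h2)

/-- (WS7) right-going edges (from WS6; `Set.uIcc_of_ge`). -/
lemma WStar.hgt_R (S : WStar n g X Y bx by_ α) {x y : ℕ} (hgx : g ≤ x) (hx : x < n) (hgy : g ≤ y)
    (hy : y < n) (hxy : x ≠ y) {t : ℝ} (ht : bx < t) (htx : t ≤ X x) (hty : t ≤ X y)
    (hne : α x t ≠ α y t) : (hgtW n g X α x < hgtW n g X α y ↔ α x t < α y t) := by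
  refine S.sgn hx hy hxy ⟨fun _ => hgy, fun _ => hgx⟩ ⟨?_, ?_⟩ hne
  · rw [Set.uIcc_of_ge (le_trans ht.le htx)]
    exact ⟨ht.le, htx⟩
  · rw [Set.uIcc_of_ge (le_trans ht.le hty)]
    exact ⟨ht.le, hty⟩

/-- (WS8) left-going edges (from WS6; `Set.uIcc_of_le`). -/
lemma WStar.hgt_L (S : WStar n g X Y bx by_ α) {x y : ℕ} (hx : x < g) (hy : y < g) (hxy : x ≠ y)
    {t : ℝ} (ht : t < bx) (htx : X x ≤ t) (hty : X y ≤ t) (hne : α x t ≠ α y t) :
    (hgtW n g X α x < hgtW n g X α y ↔ α x t < α y t) := by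
  have hxn : x < n := lt_of_lt_of_le hx S.hg
  have hyn : y < n := lt_of_lt_of_le hy S.hg
  have hs : g ≤ x ↔ g ≤ y :=
    ⟨fun h => absurd hx (not_lt.2 h), fun h => absurd hy (not_lt.2 h)⟩
  refine S.sgn hxn hyn hxy hs ⟨?_, ?_⟩ hne
  · rw [Set.uIcc_of_le (S.left x hx).le]
    exact ⟨htx, ht.le⟩
  · rw [Set.uIcc_of_le (S.left y hy).le]
    exact ⟨hty, ht.le⟩

/-- (WS9) at the end of the edge to `y` the other edges of the star have another value (`endR`, `avoid`). -/
lemma WStar.ne_end (S : WStar n g X Y bx by_ α) {x y : ℕ} (hx : x < n) (hy : y < n) (hxy : x ≠ y)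
    (hm : X y ∈ Set.uIcc (X x) bx) : α x (X y) ≠ α y (X y) := by
  rw [S.endR y hy]
  exact S.avoid x hx y hy (Ne.symm hxy) hm

/-- (WS10) bounds: the filter is contained in `(range n).erase x` (copy of `hgt_bounds` in `Mono/Star.lean`). -/
lemma hgtW_bounds {x : ℕ} (hx : x < n) : 0 ≤ hgtW n g X α x ∧ hgtW n g X α x < n := by
  classical
  refine ⟨by unfold hgtW; positivity, ?_⟩
  unfold hgtW
  have hsub : ((range n).filter fun y => (g ≤ y ↔ g ≤ x) ∧ y ≠ x ∧ Pr g X α y x) ⊆
      (range n).erase x := by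
    intro y hy
    rw [mem_filter] at hy
    rw [mem_erase]
    exact ⟨hy.2.2.1, hy.1⟩
  have hc := card_le_card hsub
  rw [card_erase_of_mem (mem_range.mpr hx), card_range] at hc
  have : ((range n).filter fun y => (g ≤ y ↔ g ≤ x) ∧ y ≠ x ∧ Pr g X α y x).card < n := by omega
  exact_mod_cast this

/-- (WS11) `lo`, `hi` from WS10; `injR`, `injL`: if `x ≠ y` then `Pr x y` or `Pr y x` (WS3), so the ranks differ (WS5). -/
lemma WStar.isHgt {k : ℕ} (S : WStar (2 * k + 1) g X Y bx by_ α) :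
    Hgt k g (hgtW (2 * k + 1) g X α) := by
  have key : ∀ x < 2 * k + 1, ∀ y < 2 * k + 1, (g ≤ x ↔ g ≤ y) →
      hgtW (2 * k + 1) g X α x = hgtW (2 * k + 1) g X α y → x = y := by
    intro x hx y hy hs h
    by_contra hxy
    rcases (S.pr_total hx hy hxy hs).1 with h1 | h1
    · have := (S.hgtW_lt_iff hx hy hxy hs).2 h1
      omega
    · have := (S.hgtW_lt_iff hy hx (Ne.symm hxy) hs.symm).2 h1
      omega
  refine ⟨S.hg, fun x hx => (hgtW_bounds hx).1, fun x hx => ?_, ?_, ?_⟩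
  · have := (hgtW_bounds (g := g) (X := X) (α := α) hx).2
    exact_mod_cast this
  · intro x hx y hy hgx hgy h
    exact key x hx y hy ⟨fun _ => hgy, fun _ => hgx⟩ h
  · intro x hx y hy h
    have hg := S.hg
    exact key x (by omega) y (by omega) ⟨fun h1 => by omega, fun h1 => by omega⟩ h

end Vale.Agent.P040.Mono46
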